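import Mathlib

/-!
# P047: basic Fourier analysis on the discrete cube
-/

namespace Vale.Agent.P047

open Finset

/-- The Walsh-Fourier coefficient at `S` of a real function `f` on the cube `{-1,1}^ι`. -/
noncomputable def fhat {ι : Type*} [Fintype ι] [DecidableEq ι]
    (f : (ι → ℤˣ) → ℝ) (S : Finset ι) : ℝ :=
  (∑ x : ι → ℤˣ, f x * ∏ i ∈ S, ((x i : ℤ) : ℝ)) / 2 ^ Fintype.card ι

section
variable {ι : Type*} [Fintype ι] [DecidableEq ι]

/-- the character `χ_S` -/
noncomputable def chi (S : Finset ι) (x : ι → ℤˣ) : ℝ := ∏ i ∈ S, ((x i : ℤ) : ℝ)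

theorem units_sq (u : ℤˣ) : (((u : ℤ) : ℝ)) * ((u : ℤ) : ℝ) = 1 := by
  rcases Int.units_eq_one_or u with h | h <;> simp [h]

theorem units_sum (F : ℤˣ → ℝ) : ∑ u : ℤˣ, F u = F 1 + F (-1) := by
  have : (Finset.univ : Finset ℤˣ) = {1, -1} := by decide
  rw [this, Finset.sum_pair (by decide)]

theorem sum_pi_prod {κ : Type*} [Fintype κ] [DecidableEq κ] (F : ι → κ → ℝ) :
    ∑ x : ι → κ, ∏ i, F i (x i) = ∏ i, ∑ u, F i u := by
  rw [Finset.prod_univ_sum]
  simp

omit [Fintype ι] in
theorem chi_mul_chi (S T : Finset ι) (x : ι → ℤˣ) :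
    chi S x * chi T x = chi (symmDiff S T) x := by
  unfold chi
  have h1 : ∏ i ∈ S, ((x i : ℤ) : ℝ)
      = (∏ i ∈ S \ T, ((x i : ℤ) : ℝ)) * ∏ i ∈ S ∩ T, ((x i : ℤ) : ℝ) := by
    rw [← Finset.prod_union (Finset.disjoint_sdiff_inter S T)]
    congr 1
    exact (Finset.sdiff_union_inter S T).symm
  have h2 : ∏ i ∈ T, ((x i : ℤ) : ℝ)
      = (∏ i ∈ T \ S, ((x i : ℤ) : ℝ)) * ∏ i ∈ S ∩ T, ((x i : ℤ) : ℝ) := by
    rw [Finset.inter_comm, ← Finset.prod_union (Finset.disjoint_sdiff_inter T S)]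
    congr 1
    exact (Finset.sdiff_union_inter T S).symm
  have h3 : (∏ i ∈ S ∩ T, ((x i : ℤ) : ℝ)) * (∏ i ∈ S ∩ T, ((x i : ℤ) : ℝ)) = 1 := by
    rw [← Finset.prod_mul_distrib]
    exact Finset.prod_eq_one (fun i _ => units_sq _)
  have h4 : ∏ i ∈ symmDiff S T, ((x i : ℤ) : ℝ)
      = (∏ i ∈ S \ T, ((x i : ℤ) : ℝ)) * ∏ i ∈ T \ S, ((x i : ℤ) : ℝ) := by
    rw [symmDiff_def, Finset.sup_eq_union, Finset.prod_union]
    exact disjoint_sdiff_sdiff
  rw [h1, h2, h4]
  calc _ = (∏ i ∈ S \ T, ((x i : ℤ) : ℝ)) * (∏ i ∈ T \ S, ((x i : ℤ) : ℝ)) *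
      ((∏ i ∈ S ∩ T, ((x i : ℤ) : ℝ)) * (∏ i ∈ S ∩ T, ((x i : ℤ) : ℝ))) := by ring
    _ = _ := by rw [h3, mul_one]

theorem sum_chi (S : Finset ι) :
    ∑ x : ι → ℤˣ, chi S x = if S = ∅ then (2 : ℝ) ^ Fintype.card ι else 0 := by
  have h : ∀ x : ι → ℤˣ, chi S x = ∏ i, (if i ∈ S then ((x i : ℤ) : ℝ) else 1) := by
    intro x
    unfold chi
    rw [Finset.prod_ite_mem, Finset.univ_inter]
  simp_rw [h]
  rw [sum_pi_prod (fun i (u : ℤˣ) => if i ∈ S then ((u : ℤ) : ℝ) else 1)]
  split_ifs with hS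
  · subst hS
    simp [Fintype.card_units_int]
  · obtain ⟨i, hi⟩ := Finset.nonempty_iff_ne_empty.mpr hS
    apply Finset.prod_eq_zero (Finset.mem_univ i)
    simp only [hi, if_true]
    rw [units_sum]
    simp

theorem fhat_chi (S T : Finset ι) : fhat (chi S) T = if S = T then 1 else 0 := by
  unfold fhat
  have h : ∀ x : ι → ℤˣ, chi S x * ∏ i ∈ T, ((x i : ℤ) : ℝ) = chi (symmDiff S T) x := by
    intro x
    exact chi_mul_chi S T x
  simp_rw [h, sum_chi]
  by_cases hST : S = T
  · simp [hST]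
  · have : symmDiff S T ≠ ∅ := by
      intro h0
      exact hST (symmDiff_eq_bot.mp h0)
    simp [hST, this]

theorem fhat_add (f g : (ι → ℤˣ) → ℝ) (S : Finset ι) :
    fhat (fun x => f x + g x) S = fhat f S + fhat g S := by
  unfold fhat
  simp_rw [add_mul, Finset.sum_add_distrib, add_div]

theorem fhat_smul (c : ℝ) (f : (ι → ℤˣ) → ℝ) (S : Finset ι) :
    fhat (fun x => c * f x) S = c * fhat f S := by
  unfold fhat
  simp_rw [mul_assoc, ← Finset.mul_sum, mul_div_assoc]

theorem fhat_sum {α : Type*} (s : Finset α) (f : α → (ι → ℤˣ) → ℝ) (S : Finset ι) :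
    fhat (fun x => ∑ a ∈ s, f a x) S = ∑ a ∈ s, fhat (f a) S := by
  classical
  induction s using Finset.induction_on with
  | empty => simp [fhat]
  | insert a s ha ih =>
    simp_rw [Finset.sum_insert ha]
    rw [fhat_add, ih]

/-- Fourier inversion. -/
theorem inversion (f : (ι → ℤˣ) → ℝ) (x : ι → ℤˣ) :
    f x = ∑ S : Finset ι, fhat f S * chi S x := by
  unfold fhat
  have h1 : ∀ y : ι → ℤˣ, ∑ S : Finset ι, chi S y * chi S x
      = if y = x then (2 : ℝ) ^ Fintype.card ι else 0 := by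
    intro y
    have : ∀ S : Finset ι, chi S y * chi S x = ∏ i ∈ S, (((y i : ℤ) : ℝ) * ((x i : ℤ) : ℝ)) := by
      intro S; unfold chi; rw [Finset.prod_mul_distrib]
    simp_rw [this]
    have h2 := Finset.prod_one_add (s := (Finset.univ : Finset ι))
      (f := fun i => (((y i : ℤ) : ℝ) * ((x i : ℤ) : ℝ)))
    rw [Finset.powerset_univ] at h2
    rw [← h2]
    split_ifs with hyx
    · subst hyx
      simp_rw [units_sq]
      simp only [Finset.prod_const, Finset.card_univ]
      norm_num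
    · obtain ⟨i, hi⟩ := Function.ne_iff.mp hyx
      apply Finset.prod_eq_zero (Finset.mem_univ i)
      rcases Int.units_eq_one_or (y i) with h | h <;> rcases Int.units_eq_one_or (x i) with h' | h'
      · exact absurd (h.trans h'.symm) hi
      · simp [h, h']
      · simp [h, h']
      · exact absurd (h.trans h'.symm) hi
  have h3 : ∑ S : Finset ι, (∑ y : ι → ℤˣ, f y * ∏ i ∈ S, ((y i : ℤ) : ℝ)) / 2 ^ Fintype.card ι * chi S x
      = (∑ y : ι → ℤˣ, f y * ∑ S : Finset ι, chi S y * chi S x) / 2 ^ Fintype.card ι := by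
    simp_rw [Finset.mul_sum]
    rw [Finset.sum_comm, Finset.sum_div]
    apply Finset.sum_congr rfl
    intro S _
    rw [Finset.sum_div, Finset.sum_div, Finset.sum_mul]
    apply Finset.sum_congr rfl
    intro y _
    unfold chi
    ring
  rw [h3]
  simp_rw [h1]
  simp

/-- The space of real functions on the cube spanned by the characters of size at most `d`. -/
def Low (ι : Type*) [Fintype ι] [DecidableEq ι] (d : ℕ) : Submodule ℝ ((ι → ℤˣ) → ℝ) :=
  Submodule.span ℝ {g | ∃ S : Finset ι, S.card ≤ d ∧ g = chi S}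

theorem chi_mem_low {d : ℕ} {S : Finset ι} (h : S.card ≤ d) : chi S ∈ Low ι d :=
  Submodule.subset_span ⟨S, h, rfl⟩

theorem mem_low_iff {d : ℕ} (f : (ι → ℤˣ) → ℝ) :
    f ∈ Low ι d ↔ ∀ S : Finset ι, d < S.card → fhat f S = 0 := by
  constructor
  · intro hf S hS
    unfold Low at hf
    induction hf using Submodule.span_induction with
    | mem g hg =>
      obtain ⟨T, hT, rfl⟩ := hg
      rw [fhat_chi, if_neg]
      rintro rfl
      omega
    | zero => simp [fhat]
    | add g h _ _ hg hh =>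
      have := fhat_add g h S
      rw [hg, hh] at this
      exact this.trans (add_zero 0)
    | smul c g _ hg =>
      have := fhat_smul c g S
      rw [hg] at this
      exact this.trans (mul_zero c)
  · intro h
    have : f = ∑ S : Finset ι, fhat f S • chi S := by
      funext x
      rw [Finset.sum_apply]
      simpa [smul_eq_mul] using inversion f x
    rw [this]
    apply Submodule.sum_mem
    intro S _
    by_cases hS : S.card ≤ d
    · exact Submodule.smul_mem _ _ (chi_mem_low hS)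
    · rw [h S (by omega), zero_smul]
      exact Submodule.zero_mem _

theorem low_mono {d e : ℕ} (h : d ≤ e) : Low ι d ≤ Low ι e := by
  apply Submodule.span_mono
  rintro g ⟨S, hS, rfl⟩
  exact ⟨S, hS.trans h, rfl⟩

theorem low_mul {d e : ℕ} {f g : (ι → ℤˣ) → ℝ} (hf : f ∈ Low ι d) (hg : g ∈ Low ι e) :
    (fun x => f x * g x) ∈ Low ι (d + e) := by
  unfold Low at hf hg
  induction hf using Submodule.span_induction with
  | mem f hf =>
    obtain ⟨S, hS, rfl⟩ := hf
    induction hg using Submodule.span_induction with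
    | mem g hg =>
      obtain ⟨T, hT, rfl⟩ := hg
      have : (fun x => chi S x * chi T x) = chi (symmDiff S T) := by
        funext x; exact chi_mul_chi S T x
      rw [this]
      apply chi_mem_low
      calc (symmDiff S T).card ≤ (S ∪ T).card := by
            apply Finset.card_le_card
            rw [symmDiff_def, Finset.sup_eq_union]
            exact Finset.union_subset_union Finset.sdiff_subset Finset.sdiff_subset
        _ ≤ S.card + T.card := Finset.card_union_le _ _
        _ ≤ d + e := by omega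
    | zero =>
      have : (fun x => chi S x * (0 : (ι → ℤˣ) → ℝ) x) = 0 := by funext x; simp
      rw [this]; exact Submodule.zero_mem _
    | add g h _ _ ihg ihh =>
      have : (fun x => chi S x * (g + h) x) = (fun x => chi S x * g x) + (fun x => chi S x * h x) := by
        funext x; simp [mul_add]
      rw [this]; exact Submodule.add_mem _ ihg ihh
    | smul c g _ ih =>
      have : (fun x => chi S x * (c • g) x) = c • (fun x => chi S x * g x) := by
        funext x; simp; ring
      rw [this]; exact Submodule.smul_mem _ _ ih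
  | zero =>
    have : (fun x => (0 : (ι → ℤˣ) → ℝ) x * g x) = 0 := by funext x; simp
    rw [this]; exact Submodule.zero_mem _
  | add f h _ _ ihg ihh =>
    have : (fun x => (f + h) x * g x) = (fun x => f x * g x) + (fun x => h x * g x) := by
      funext x; simp [add_mul]
    rw [this]; exact Submodule.add_mem _ ihg ihh
  | smul c f _ ih =>
    have : (fun x => (c • f) x * g x) = c • (fun x => f x * g x) := by
      funext x; simp; ring
    rw [this]; exact Submodule.smul_mem _ _ ih

theorem low_const (c : ℝ) (d : ℕ) : (fun _ : ι → ℤˣ => c) ∈ Low ι d := by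
  have : (fun _ : ι → ℤˣ => c) = c • chi (∅ : Finset ι) := by
    funext x; simp [chi]
  rw [this]
  exact Submodule.smul_mem _ _ (chi_mem_low (by simp))

theorem low_coord (i : ι) : (fun x : ι → ℤˣ => ((x i : ℤ) : ℝ)) ∈ Low ι 1 := by
  have : (fun x : ι → ℤˣ => ((x i : ℤ) : ℝ)) = chi ({i} : Finset ι) := by
    funext x; simp [chi]
  rw [this]
  exact chi_mem_low (by simp)

theorem low_add {d : ℕ} {f g : (ι → ℤˣ) → ℝ} (hf : f ∈ Low ι d) (hg : g ∈ Low ι d) :
    (fun x => f x + g x) ∈ Low ι d := Submodule.add_mem _ hf hg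

theorem low_sub {d : ℕ} {f g : (ι → ℤˣ) → ℝ} (hf : f ∈ Low ι d) (hg : g ∈ Low ι d) :
    (fun x => f x - g x) ∈ Low ι d := Submodule.sub_mem _ hf hg

theorem low_smul {d : ℕ} {f : (ι → ℤˣ) → ℝ} (c : ℝ) (hf : f ∈ Low ι d) :
    (fun x => c * f x) ∈ Low ι d := Submodule.smul_mem _ c hf

theorem low_sum {α : Type*} {d : ℕ} (s : Finset α) (f : α → (ι → ℤˣ) → ℝ)
    (h : ∀ a ∈ s, f a ∈ Low ι d) : (fun x => ∑ a ∈ s, f a x) ∈ Low ι d := by
  have : (fun x => ∑ a ∈ s, f a x) = ∑ a ∈ s, f a := by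
    funext x; rw [Finset.sum_apply]
  rw [this]
  exact Submodule.sum_mem _ h

theorem low_prod {α : Type*} {d : ℕ} (s : Finset α) (f : α → (ι → ℤˣ) → ℝ)
    (h : ∀ a ∈ s, f a ∈ Low ι d) : (fun x => ∏ a ∈ s, f a x) ∈ Low ι (s.card * d) := by
  classical
  induction s using Finset.induction_on with
  | empty => simpa using low_const (ι := ι) 1 (0 * d)
  | insert a s ha ih =>
    have h1 := low_mul (h a (Finset.mem_insert_self a s))
      (ih (fun b hb => h b (Finset.mem_insert_of_mem hb)))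
    have h2 : (fun x => ∏ b ∈ insert a s, f b x) = (fun x => f a x * ∏ b ∈ s, f b x) := by
      funext x; rw [Finset.prod_insert ha]
    rw [h2, Finset.card_insert_of_notMem ha, add_mul, one_mul, add_comm]
    exact h1

/-- pulling back along an embedding of the coordinates does not increase the degree -/
theorem low_pull {κ : Type*} [Fintype κ] [DecidableEq κ] {d : ℕ} (e : κ ↪ ι)
    {f : (κ → ℤˣ) → ℝ} (hf : f ∈ Low κ d) : (fun x : ι → ℤˣ => f (fun k => x (e k))) ∈ Low ι d := by
  unfold Low at hf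
  induction hf using Submodule.span_induction with
  | mem f hf =>
    obtain ⟨S, hS, rfl⟩ := hf
    have : (fun x : ι → ℤˣ => chi S (fun k => x (e k))) = chi (S.map e) := by
      funext x; simp [chi]
    rw [this]
    exact chi_mem_low (by simpa using hS)
  | zero =>
    have : (fun x : ι → ℤˣ => (0 : (κ → ℤˣ) → ℝ) (fun k => x (e k))) = 0 := by funext x; simp
    rw [this]; exact Submodule.zero_mem _
  | add f h _ _ ihg ihh =>
    exact Submodule.add_mem _ ihg ihh
  | smul c f _ ih =>
    exact Submodule.smul_mem _ c ih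

/-- Level-one sum `∑_i f̂({i})`. -/
noncomputable def lin (f : (ι → ℤˣ) → ℝ) : ℝ := ∑ i, fhat f {i}

theorem lin_eq (f : (ι → ℤˣ) → ℝ) :
    lin f = (∑ x : ι → ℤˣ, f x * ∑ i, ((x i : ℤ) : ℝ)) / 2 ^ Fintype.card ι := by
  unfold lin fhat
  simp only [Finset.prod_singleton]
  rw [← Finset.sum_div, Finset.sum_comm]
  simp_rw [Finset.mul_sum]

end

end Vale.Agent.P047
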