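import Vale.Agent.P047.Basic

/-!
# P047: biased Fourier analysis and the differential inequality
-/

namespace Vale.Agent.P047

open Finset Polynomial

section
variable {ι : Type*} [Fintype ι] [DecidableEq ι]

/-- biased product weight, each coordinate has mean `ρ` -/
noncomputable def wt (ρ : ℝ) (x : ι → ℤˣ) : ℝ := ∏ i, ((1 + ρ * ((x i : ℤ) : ℝ)) / 2)

/-- biased expectation -/
noncomputable def ex (ρ : ℝ) (g : (ι → ℤˣ) → ℝ) : ℝ := ∑ x, wt ρ x * g x

/-- biased monomial -/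
noncomputable def phi (ρ : ℝ) (S : Finset ι) (x : ι → ℤˣ) : ℝ := ∏ i ∈ S, (((x i : ℤ) : ℝ) - ρ)

omit [DecidableEq ι] in
theorem wt_nonneg {ρ : ℝ} (h1 : -1 ≤ ρ) (h2 : ρ ≤ 1) (x : ι → ℤˣ) : 0 ≤ wt ρ x := by
  unfold wt
  apply Finset.prod_nonneg
  intro i _
  rcases Int.units_eq_one_or (x i) with h | h <;> simp [h] <;> linarith

omit [DecidableEq ι] in
theorem wt_pos {ρ : ℝ} (h1 : -1 < ρ) (h2 : ρ < 1) (x : ι → ℤˣ) : 0 < wt ρ x := by
  unfold wt
  apply Finset.prod_pos
  intro i _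
  rcases Int.units_eq_one_or (x i) with h | h <;> simp [h] <;> linarith

theorem ex_phi_mul (ρ : ℝ) (S T : Finset ι) :
    ex ρ (fun x => phi ρ S x * phi ρ T x) = if S = T then (1 - ρ ^ 2) ^ S.card else 0 := by
  unfold ex
  have h : ∀ x : ι → ℤˣ, wt ρ x * (phi ρ S x * phi ρ T x)
      = ∏ i, (((1 + ρ * ((x i : ℤ) : ℝ)) / 2) * ((if i ∈ S then (((x i : ℤ) : ℝ) - ρ) else 1) *
        (if i ∈ T then (((x i : ℤ) : ℝ) - ρ) else 1))) := by
    intro x
    unfold wt phi
    rw [Finset.prod_mul_distrib, Finset.prod_mul_distrib, Finset.prod_ite_mem, Finset.prod_ite_mem,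
      Finset.univ_inter, Finset.univ_inter]
  simp_rw [h]
  rw [sum_pi_prod (fun i (u : ℤˣ) => (((1 + ρ * ((u : ℤ) : ℝ)) / 2) * ((if i ∈ S then (((u : ℤ) : ℝ) - ρ) else 1) *
        (if i ∈ T then (((u : ℤ) : ℝ) - ρ) else 1))))]
  split_ifs with hST
  · subst hST
    have : ∀ i, (∑ u : ℤˣ, (((1 + ρ * ((u : ℤ) : ℝ)) / 2) * ((if i ∈ S then (((u : ℤ) : ℝ) - ρ) else 1) *
        (if i ∈ S then (((u : ℤ) : ℝ) - ρ) else 1)))) = if i ∈ S then (1 - ρ ^ 2) else 1 := by
      intro i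
      rw [units_sum]
      split_ifs
      · push_cast; ring
      · push_cast; ring
    simp_rw [this]
    rw [Finset.prod_ite_mem, Finset.univ_inter, Finset.prod_const]
  · have : ∃ i, ¬ (i ∈ S ↔ i ∈ T) := by
      by_contra hcon
      push Not at hcon
      exact hST (Finset.ext hcon)
    obtain ⟨i, hi⟩ := this
    apply Finset.prod_eq_zero (Finset.mem_univ i)
    rw [units_sum]
    by_cases h1 : i ∈ S
    · have h2 : i ∉ T := fun h => hi ⟨fun _ => h, fun _ => h1⟩
      simp only [h1, h2, if_true, if_false]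
      push_cast; ring
    · have h2 : i ∈ T := by
        by_contra h
        exact hi ⟨fun h' => absurd h' h1, fun h' => absurd h' h⟩
      simp only [h1, h2, if_true, if_false]
      push_cast; ring

theorem ex_add (ρ : ℝ) (f g : (ι → ℤˣ) → ℝ) : ex ρ (fun x => f x + g x) = ex ρ f + ex ρ g := by
  unfold ex; simp_rw [mul_add, Finset.sum_add_distrib]

theorem ex_smul (ρ c : ℝ) (f : (ι → ℤˣ) → ℝ) : ex ρ (fun x => c * f x) = c * ex ρ f := by
  unfold ex; rw [Finset.mul_sum]; apply Finset.sum_congr rfl; intros; ring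

theorem ex_sum {α : Type*} (ρ : ℝ) (s : Finset α) (f : α → (ι → ℤˣ) → ℝ) :
    ex ρ (fun x => ∑ a ∈ s, f a x) = ∑ a ∈ s, ex ρ (f a) := by
  unfold ex
  rw [Finset.sum_comm]
  simp_rw [Finset.mul_sum]

theorem ex_phi (ρ : ℝ) (S : Finset ι) : ex ρ (phi ρ S) = if S = ∅ then 1 else 0 := by
  have h := ex_phi_mul ρ S (∅ : Finset ι)
  have h2 : (fun x : ι → ℤˣ => phi ρ S x * phi ρ ∅ x) = phi ρ S := by
    funext x; simp [phi]
  rw [h2] at h
  rw [h]
  split_ifs with hS
  · subst hS; simp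
  · rfl

theorem ex_one (ρ : ℝ) : ex ρ (fun _ : ι → ℤˣ => (1 : ℝ)) = 1 := by
  have h := ex_phi (ι := ι) ρ ∅
  have h2 : (phi ρ ∅ : (ι → ℤˣ) → ℝ) = fun _ => 1 := by funext x; simp [phi]
  rw [h2] at h
  simpa using h

theorem ex_mono {ρ : ℝ} (h1 : -1 ≤ ρ) (h2 : ρ ≤ 1) {f g : (ι → ℤˣ) → ℝ} (h : ∀ x, f x ≤ g x) :
    ex ρ f ≤ ex ρ g := by
  unfold ex
  apply Finset.sum_le_sum
  intro x _
  exact mul_le_mul_of_nonneg_left (h x) (wt_nonneg h1 h2 x)

/-- Bessel / Parseval for the biased monomials -/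
theorem ex_sq {α : Type*} [DecidableEq α] (ρ : ℝ) (s : Finset α) (a : α → ℝ) (m : α → Finset ι)
    (hm : ∀ b ∈ s, ∀ c ∈ s, m b = m c → b = c) :
    ex ρ (fun x => (∑ b ∈ s, a b * phi ρ (m b) x) ^ 2) = ∑ b ∈ s, a b ^ 2 * (1 - ρ ^ 2) ^ (m b).card := by
  have h : (fun x : ι → ℤˣ => (∑ b ∈ s, a b * phi ρ (m b) x) ^ 2)
      = (fun x => ∑ b ∈ s, ∑ c ∈ s, (a b * a c) * (phi ρ (m b) x * phi ρ (m c) x)) := by
    funext x
    rw [sq, Finset.sum_mul_sum]
    apply Finset.sum_congr rfl; intro b _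
    apply Finset.sum_congr rfl; intro c _
    ring
  rw [h, ex_sum]
  apply Finset.sum_congr rfl
  intro b hb
  rw [ex_sum]
  simp_rw [ex_smul, ex_phi_mul]
  rw [Finset.sum_eq_single b]
  · rw [if_pos rfl]; ring
  · intro c hc hcb
    rw [if_neg (fun h => hcb (hm b hb c hc h).symm), mul_zero]
  · intro h; exact absurd hb h

/-- biased Fourier coefficient -/
noncomputable def cf (ρ : ℝ) (f : (ι → ℤˣ) → ℝ) (S : Finset ι) : ℝ :=
  ∑ T : Finset ι, if S ⊆ T then fhat f T * ρ ^ (T.card - S.card) else 0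

omit [Fintype ι] in
theorem chi_expand (ρ : ℝ) (T : Finset ι) (x : ι → ℤˣ) :
    chi T x = ∑ S ∈ T.powerset, phi ρ S x * ρ ^ (T.card - S.card) := by
  unfold chi phi
  have h : ∀ i ∈ T, ((x i : ℤ) : ℝ) = (((x i : ℤ) : ℝ) - ρ) + ρ := by intro i _; ring
  rw [Finset.prod_congr rfl h, Finset.prod_add]
  apply Finset.sum_congr rfl
  intro S hS
  rw [Finset.prod_const, Finset.card_sdiff_of_subset (Finset.mem_powerset.mp hS)]

theorem expand (ρ : ℝ) (f : (ι → ℤˣ) → ℝ) (x : ι → ℤˣ) :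
    f x = ∑ S : Finset ι, cf ρ f S * phi ρ S x := by
  rw [inversion f x]
  simp_rw [chi_expand ρ _ x]
  unfold cf
  simp_rw [Finset.sum_mul]
  rw [Finset.sum_comm]
  apply Finset.sum_congr rfl
  intro T _
  rw [Finset.mul_sum]
  have : ∀ S : Finset ι, ((if S ⊆ T then fhat f T * ρ ^ (T.card - S.card) else 0) * phi ρ S x)
      = if S ∈ T.powerset then fhat f T * (phi ρ S x * ρ ^ (T.card - S.card)) else 0 := by
    intro S
    simp only [Finset.mem_powerset]
    split_ifs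
    · ring
    · ring
  simp_rw [this]
  rw [Finset.sum_ite_mem, Finset.univ_inter]

theorem cf_eq_zero {d : ℕ} {f : (ι → ℤˣ) → ℝ} (hf : f ∈ Low ι d) (ρ : ℝ) {S : Finset ι}
    (hS : d < S.card) : cf ρ f S = 0 := by
  unfold cf
  apply Finset.sum_eq_zero
  intro T _
  split_ifs with h
  · rw [(mem_low_iff f).mp hf T (lt_of_lt_of_le hS (Finset.card_le_card h)), zero_mul]
  · rfl

/-- discrete derivative -/
noncomputable def dd (i : ι) (f : (ι → ℤˣ) → ℝ) (x : ι → ℤˣ) : ℝ :=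
  (f (Function.update x i 1) - f (Function.update x i (-1))) / 2

omit [Fintype ι] in
theorem dd_phi (ρ : ℝ) (i : ι) (S : Finset ι) (x : ι → ℤˣ) :
    dd i (phi ρ S) x = if i ∈ S then phi ρ (S.erase i) x else 0 := by
  unfold dd phi
  split_ifs with hi
  · rw [← Finset.mul_prod_erase S _ hi, ← Finset.mul_prod_erase S (fun j => (((Function.update x i (-1) j : ℤˣ) : ℤ) : ℝ) - ρ) hi]
    have h : ∀ u : ℤˣ, ∏ j ∈ S.erase i, ((((Function.update x i u) j : ℤˣ) : ℤ) - ρ : ℝ)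
        = ∏ j ∈ S.erase i, (((x j : ℤ) : ℝ) - ρ) := by
      intro u
      apply Finset.prod_congr rfl
      intro j hj
      rw [Function.update_of_ne (Finset.ne_of_mem_erase hj)]
    rw [h, h]
    simp only [Function.update_self]
    push_cast
    ring
  · have h : ∀ u : ℤˣ, ∏ j ∈ S, ((((Function.update x i u) j : ℤˣ) : ℤ) - ρ : ℝ)
        = ∏ j ∈ S, (((x j : ℤ) : ℝ) - ρ) := by
      intro u
      apply Finset.prod_congr rfl
      intro j hj
      have hji : j ≠ i := by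
        intro h; rw [h] at hj; exact hi hj
      rw [Function.update_of_ne hji]
    rw [h, h]
    ring

theorem dd_expand (ρ : ℝ) (i : ι) (f : (ι → ℤˣ) → ℝ) (x : ι → ℤˣ) :
    dd i f x = ∑ S ∈ Finset.univ.filter (fun S : Finset ι => i ∈ S), cf ρ f S * phi ρ (S.erase i) x := by
  have h1 : dd i f x = ∑ S : Finset ι, cf ρ f S * dd i (phi ρ S) x := by
    unfold dd
    rw [expand ρ f (Function.update x i 1), expand ρ f (Function.update x i (-1)),
      ← Finset.sum_sub_distrib, Finset.sum_div]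
    apply Finset.sum_congr rfl
    intro S _
    ring
  rw [h1, Finset.sum_filter]
  apply Finset.sum_congr rfl
  intro S _
  rw [dd_phi]
  split_ifs <;> ring

theorem ex_dd (ρ : ℝ) (i : ι) (f : (ι → ℤˣ) → ℝ) : ex ρ (dd i f) = cf ρ f {i} := by
  have h : dd i f = fun x => ∑ S ∈ Finset.univ.filter (fun S : Finset ι => i ∈ S), cf ρ f S * phi ρ (S.erase i) x := by
    funext x; exact dd_expand ρ i f x
  rw [h, ex_sum]
  simp_rw [ex_smul]
  rw [Finset.sum_eq_single {i}]
  · have : ({i} : Finset ι).erase i = ∅ := by simp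
    rw [this, ex_phi]; simp
  · intro S hS hne
    have hi : i ∈ S := by simpa using hS
    have : S.erase i ≠ ∅ := by
      intro h0
      rw [Finset.erase_eq_empty_iff] at h0
      rcases h0 with h0 | h0
      · subst h0; simp at hi
      · exact hne h0
    rw [ex_phi, if_neg this, mul_zero]
  · intro h; simp at h

theorem ex_dd_sq (ρ : ℝ) (i : ι) (f : (ι → ℤˣ) → ℝ) :
    ex ρ (fun x => dd i f x ^ 2)
      = ∑ S ∈ Finset.univ.filter (fun S : Finset ι => i ∈ S), cf ρ f S ^ 2 * (1 - ρ ^ 2) ^ (S.card - 1) := by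
  have h : (fun x => dd i f x ^ 2) = fun x => (∑ S ∈ Finset.univ.filter (fun S : Finset ι => i ∈ S), cf ρ f S * phi ρ (S.erase i) x) ^ 2 := by
    funext x; rw [dd_expand ρ i f x]
  rw [h, ex_sq ρ _ (fun S => cf ρ f S) (fun S => S.erase i)]
  · apply Finset.sum_congr rfl
    intro S hS
    have hi : i ∈ S := by simpa using hS
    rw [Finset.card_erase_of_mem hi]
  · intro S hS T hT hST
    have hi : i ∈ S := by simpa using hS
    have hi' : i ∈ T := by simpa using hT
    rw [← Finset.insert_erase hi, ← Finset.insert_erase hi', hST]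

/-- `f` takes only the values `1` and `-1`. -/
def IsBool (f : (ι → ℤˣ) → ℝ) : Prop := ∀ x, f x = 1 ∨ f x = -1

omit [Fintype ι] in
theorem dd_le_sq {f : (ι → ℤˣ) → ℝ} (hf : IsBool f) (i : ι) (x : ι → ℤˣ) :
    dd i f x ≤ dd i f x ^ 2 := by
  unfold dd
  rcases hf (Function.update x i 1) with h | h <;> rcases hf (Function.update x i (-1)) with h' | h' <;>
    rw [h, h'] <;> norm_num

/-- the generating polynomial `∑_S f̂(S) X^|S|`. -/
noncomputable def genP (f : (ι → ℤˣ) → ℝ) : ℝ[X] := ∑ S : Finset ι, C (fhat f S) * X ^ S.card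

theorem genP_eval (f : (ι → ℤˣ) → ℝ) (ρ : ℝ) : (genP f).eval ρ = cf ρ f ∅ := by
  unfold genP cf
  simp [Polynomial.eval_finsetSum]

theorem ex_eq_genP (f : (ι → ℤˣ) → ℝ) (ρ : ℝ) : ex ρ f = (genP f).eval ρ := by
  rw [genP_eval]
  have h : f = fun x => ∑ S ∈ (Finset.univ : Finset (Finset ι)), cf ρ f S * phi ρ S x := by
    funext x; exact expand ρ f x
  conv_lhs => rw [h]
  rw [ex_sum]
  simp_rw [ex_smul, ex_phi]
  simp

theorem genP_deriv_eval (f : (ι → ℤˣ) → ℝ) (ρ : ℝ) :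
    (derivative (genP f)).eval ρ = ∑ i, cf ρ f {i} := by
  unfold genP cf
  rw [Polynomial.derivative_sum, Polynomial.eval_finsetSum, Finset.sum_comm]
  apply Finset.sum_congr rfl
  intro T _
  simp only [Finset.singleton_subset_iff, Finset.card_singleton]
  rw [Finset.sum_ite_mem, Finset.univ_inter, Finset.sum_const, nsmul_eq_mul]
  simp only [Polynomial.derivative_C_mul, Polynomial.derivative_X_pow, Polynomial.eval_mul,
    Polynomial.eval_C, Polynomial.eval_pow, Polynomial.eval_X]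
  ring

theorem sum_card_filter (a : Finset ι → ℝ) :
    ∑ i, ∑ S ∈ Finset.univ.filter (fun S : Finset ι => i ∈ S), a S = ∑ S : Finset ι, (S.card : ℝ) * a S := by
  simp_rw [Finset.sum_filter]
  rw [Finset.sum_comm]
  apply Finset.sum_congr rfl
  intro S _
  rw [Finset.sum_ite_mem, Finset.univ_inter, Finset.sum_const, nsmul_eq_mul]

/-- The differential inequality `(1 - ρ²) p'(ρ) ≤ d (1 - p(ρ)²)`. -/
theorem diff_ineq {d : ℕ} {f : (ι → ℤˣ) → ℝ} (hf : f ∈ Low ι d) (hb : IsBool f) {ρ : ℝ}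
    (h1 : -1 < ρ) (h2 : ρ < 1) :
    (1 - ρ ^ 2) * (derivative (genP f)).eval ρ ≤ d * (1 - (genP f).eval ρ ^ 2) := by
  have hσ : 0 < 1 - ρ ^ 2 := by nlinarith
  have hA : (derivative (genP f)).eval ρ ≤ ∑ i, ex ρ (fun x => dd i f x ^ 2) := by
    rw [genP_deriv_eval]
    apply Finset.sum_le_sum
    intro i _
    rw [← ex_dd]
    exact ex_mono h1.le h2.le (fun x => dd_le_sq hb i x)
  have hB : (1 - ρ ^ 2) * ∑ i, ex ρ (fun x => dd i f x ^ 2)
      = ∑ S : Finset ι, (S.card : ℝ) * (cf ρ f S ^ 2 * (1 - ρ ^ 2) ^ S.card) := by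
    rw [← sum_card_filter, Finset.mul_sum]
    apply Finset.sum_congr rfl
    intro i _
    rw [ex_dd_sq, Finset.mul_sum]
    apply Finset.sum_congr rfl
    intro S hS
    have hi : i ∈ S := by simpa using hS
    have hc : S.card = (S.card - 1) + 1 := by
      have := Finset.card_pos.mpr ⟨i, hi⟩
      omega
    conv_rhs => rw [hc, pow_succ]
    ring
  have hC : ∑ S : Finset ι, cf ρ f S ^ 2 * (1 - ρ ^ 2) ^ S.card = 1 := by
    have h := ex_sq ρ (Finset.univ : Finset (Finset ι)) (fun S => cf ρ f S) (fun S => S) (by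
      intro b _ c _ h; exact h)
    rw [← h]
    have : (fun x => (∑ b : Finset ι, cf ρ f b * phi ρ b x) ^ 2) = fun _ => (1 : ℝ) := by
      funext x
      rw [← expand ρ f x]
      rcases hb x with h | h <;> rw [h] <;> norm_num
    rw [this, ex_one]
  have hD : ∑ S : Finset ι, (S.card : ℝ) * (cf ρ f S ^ 2 * (1 - ρ ^ 2) ^ S.card)
      ≤ d * (1 - (genP f).eval ρ ^ 2) := by
    have h3 : ∀ S : Finset ι, (S.card : ℝ) * (cf ρ f S ^ 2 * (1 - ρ ^ 2) ^ S.card)
        ≤ (d : ℝ) * (if S = ∅ then 0 else (cf ρ f S ^ 2 * (1 - ρ ^ 2) ^ S.card)) := by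
      intro S
      by_cases hS : S = ∅
      · subst hS; simp
      · rw [if_neg hS]
        by_cases hd : S.card ≤ d
        · apply mul_le_mul_of_nonneg_right
          · exact_mod_cast hd
          · positivity
        · rw [cf_eq_zero hf ρ (by omega)]
          simp
    have h4 : ∑ S : Finset ι, (if S = ∅ then 0 else (cf ρ f S ^ 2 * (1 - ρ ^ 2) ^ S.card))
        = 1 - (genP f).eval ρ ^ 2 := by
      rw [genP_eval]
      have e1 := Finset.add_sum_erase (Finset.univ : Finset (Finset ι))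
        (fun S => cf ρ f S ^ 2 * (1 - ρ ^ 2) ^ S.card) (Finset.mem_univ (∅ : Finset ι))
      have e2 := Finset.add_sum_erase (Finset.univ : Finset (Finset ι))
        (fun S => if S = ∅ then 0 else (cf ρ f S ^ 2 * (1 - ρ ^ 2) ^ S.card)) (Finset.mem_univ (∅ : Finset ι))
      have e3 : ∑ S ∈ (Finset.univ : Finset (Finset ι)).erase ∅,
          (if S = ∅ then 0 else (cf ρ f S ^ 2 * (1 - ρ ^ 2) ^ S.card))
          = ∑ S ∈ (Finset.univ : Finset (Finset ι)).erase ∅, cf ρ f S ^ 2 * (1 - ρ ^ 2) ^ S.card := by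
        apply Finset.sum_congr rfl
        intro S hS
        rw [if_neg (Finset.ne_of_mem_erase hS)]
      simp only [if_true, Finset.card_empty, pow_zero, mul_one, zero_add] at e1 e2
      rw [hC] at e1
      rw [← e2, e3]
      linarith
    calc _ ≤ ∑ S : Finset ι, (d : ℝ) * (if S = ∅ then 0 else (cf ρ f S ^ 2 * (1 - ρ ^ 2) ^ S.card)) :=
          Finset.sum_le_sum (fun S _ => h3 S)
      _ = _ := by rw [← Finset.mul_sum, h4]
  calc (1 - ρ ^ 2) * (derivative (genP f)).eval ρ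
      ≤ (1 - ρ ^ 2) * ∑ i, ex ρ (fun x => dd i f x ^ 2) := mul_le_mul_of_nonneg_left hA hσ.le
    _ ≤ _ := by rw [hB]; exact hD

theorem lin_eq_genP (f : (ι → ℤˣ) → ℝ) : lin f = (derivative (genP f)).eval 0 := by
  rw [genP_deriv_eval]
  unfold lin
  apply Finset.sum_congr rfl
  intro i _
  unfold cf
  rw [Finset.sum_eq_single {i}]
  · simp
  · intro T _ hT
    split_ifs with h
    · have : ({i} : Finset ι).card < T.card := Finset.card_lt_card
        ((Finset.ssubset_iff_subset_ne).mpr ⟨h, fun h' => hT h'.symm⟩)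
      rw [zero_pow (by omega), mul_zero]
    · rfl
  · intro h; simp at h

theorem lin_le {d : ℕ} {f : (ι → ℤˣ) → ℝ} (hf : f ∈ Low ι d) (hb : IsBool f) : lin f ≤ d := by
  have h := diff_ineq hf hb (ρ := 0) (by norm_num) (by norm_num)
  rw [← lin_eq_genP] at h
  have : (d : ℝ) * (1 - (genP f).eval 0 ^ 2) ≤ d := by
    have : (0:ℝ) ≤ d := Nat.cast_nonneg d
    nlinarith [sq_nonneg ((genP f).eval 0)]
  linarith

end

end Vale.Agent.P047
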