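import Vale.Agent.P047.Comp

/-!
# P047: Lagrange interpolation at Chebyshev nodes
-/

namespace Vale.Agent.P047

open Finset Polynomial

/-- `x * chS m (x²) = T_{2m+1}(x)` -/
noncomputable def chS : ℕ → ℝ[X]
  | 0 => 1
  | 1 => C 4 * X - C 3
  | (m + 2) => (C 4 * X - C 2) * chS (m + 1) - chS m

theorem chS_eval (θ : ℝ) : ∀ m : ℕ, Real.cos θ * (chS m).eval (Real.cos θ ^ 2) = Real.cos ((2 * m + 1) * θ)
  | 0 => by simp [chS]
  | 1 => by
    have h : ((2 * ((1 : ℕ) : ℝ) + 1) * θ) = 3 * θ := by push_cast; ring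
    rw [h, Real.cos_three_mul]
    simp [chS]; ring
  | (m + 2) => by
    have h1 := chS_eval θ (m + 1)
    have h2 := chS_eval θ m
    have h3 : Real.cos ((2 * ((m + 2 : ℕ) : ℝ) + 1) * θ)
        = 2 * Real.cos (2 * θ) * Real.cos ((2 * ((m + 1 : ℕ) : ℝ) + 1) * θ) - Real.cos ((2 * (m : ℝ) + 1) * θ) := by
      have e1 : (2 * ((m + 2 : ℕ) : ℝ) + 1) * θ = (2 * ((m + 1 : ℕ) : ℝ) + 1) * θ + 2 * θ := by
        push_cast; ring
      have e2 : (2 * (m : ℝ) + 1) * θ = (2 * ((m + 1 : ℕ) : ℝ) + 1) * θ - 2 * θ := by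
        push_cast; ring
      rw [e1, e2, Real.cos_add, Real.cos_sub]; ring
    rw [h3, ← h1, ← h2, Real.cos_two_mul]
    simp only [chS, eval_sub, eval_mul, eval_C, eval_X]
    ring

theorem chS_zero : ∀ m : ℕ, (chS m).eval 0 = (-1) ^ m * (2 * m + 1)
  | 0 => by simp [chS]
  | 1 => by simp [chS]; norm_num
  | (m + 2) => by
    have h1 := chS_zero (m + 1)
    have h2 := chS_zero m
    simp only [chS, eval_sub, eval_mul, eval_C, eval_X, h1, h2]
    push_cast
    ring

theorem chS_natDegree : ∀ m : ℕ, (chS m).natDegree ≤ m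
  | 0 => by simp [chS]
  | 1 => by
    simp only [chS]
    compute_degree
  | (m + 2) => by
    have h1 := chS_natDegree (m + 1)
    have h2 := chS_natDegree m
    simp only [chS]
    refine (natDegree_sub_le _ _).trans (max_le ?_ (by omega))
    refine (natDegree_mul_le).trans ?_
    have : (C 4 * X - C 2 : ℝ[X]).natDegree ≤ 1 := by compute_degree
    omega

/-- Chebyshev node -/
noncomputable def nd (m k : ℕ) : ℝ := Real.cos (k * Real.pi / (2 * m + 1))

theorem nd_pos {m k : ℕ} (hk : k ≤ m) : 0 < nd m k := by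
  unfold nd
  apply Real.cos_pos_of_mem_Ioo
  have hpi := Real.pi_pos
  have hm : (0 : ℝ) < 2 * m + 1 := by positivity
  have hk' : (k : ℝ) ≤ m := by exact_mod_cast hk
  constructor
  · have : 0 ≤ (k : ℝ) * Real.pi / (2 * m + 1) := by positivity
    linarith
  · rw [div_lt_div_iff₀ hm (by norm_num)]
    nlinarith

theorem nd_le_one (m k : ℕ) : nd m k ≤ 1 := Real.cos_le_one _

theorem nd_lt {m j k : ℕ} (hjk : j < k) (hk : k ≤ m) : nd m k < nd m j := by
  unfold nd
  have hpi := Real.pi_pos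
  have hm : (0 : ℝ) < 2 * m + 1 := by positivity
  have hk' : (k : ℝ) ≤ m := by exact_mod_cast hk
  have hjk' : (j : ℝ) < k := by exact_mod_cast hjk
  apply Real.strictAntiOn_cos
  · constructor
    · positivity
    · rw [div_le_iff₀ hm]; nlinarith
  · constructor
    · positivity
    · rw [div_le_iff₀ hm]; nlinarith
  · rw [div_lt_div_iff_of_pos_right hm]; nlinarith

theorem ndsq_lt {m j k : ℕ} (hjk : j < k) (hk : k ≤ m) : nd m k ^ 2 < nd m j ^ 2 := by
  have h1 := nd_lt hjk hk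
  have h2 := nd_pos hk
  nlinarith

theorem nd_inj (m : ℕ) : Set.InjOn (fun k => nd m k ^ 2) (Finset.range (m + 1) : Finset ℕ) := by
  intro a ha b hb hab
  simp only [Finset.coe_range, Set.mem_Iio] at ha hb
  rcases lt_trichotomy a b with h | h | h
  · have := ndsq_lt h (by omega : b ≤ m)
    simp only at hab
    linarith
  · exact h
  · have := ndsq_lt h (by omega : a ≤ m)
    simp only at hab
    linarith

/-- value at zero of the Lagrange basis polynomials for the squared nodes -/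
noncomputable def bk (m k : ℕ) : ℝ :=
  (Lagrange.basis (Finset.range (m + 1)) (fun k => nd m k ^ 2) k).eval 0

theorem bk_eq (m k : ℕ) : bk m k = ∏ j ∈ (Finset.range (m + 1)).erase k,
    (nd m j ^ 2 / (nd m j ^ 2 - nd m k ^ 2)) := by
  unfold bk Lagrange.basis Lagrange.basisDivisor
  rw [eval_prod]
  apply Finset.prod_congr rfl
  intro j hj
  simp only [eval_mul, eval_C, eval_sub, eval_X, zero_sub]
  rw [← neg_sub (nd m j ^ 2) (nd m k ^ 2), inv_neg, neg_mul_neg, div_eq_inv_mul]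

theorem bk_sign {m k : ℕ} (hk : k ≤ m) : 0 ≤ (-1) ^ (m + k) * bk m k := by
  rw [bk_eq]
  have h1 : (Finset.range (m + 1)).erase k = Finset.range k ∪ Finset.Ioc k m := by
    ext j; simp; omega
  have h2 : Disjoint (Finset.range k) (Finset.Ioc k m) := by
    rw [Finset.disjoint_left]; intro j; simp; omega
  rw [h1, Finset.prod_union h2]
  have h3 : (-1 : ℝ) ^ (m + k) = ∏ j ∈ Finset.Ioc k m, (-1 : ℝ) := by
    rw [Finset.prod_const, Nat.card_Ioc]
    have : m + k = (m - k) + 2 * k := by omega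
    rw [this, pow_add, pow_mul]; norm_num
  have h4 : (-1 : ℝ) ^ (m + k) * ((∏ j ∈ Finset.range k, (nd m j ^ 2 / (nd m j ^ 2 - nd m k ^ 2))) *
      ∏ j ∈ Finset.Ioc k m, (nd m j ^ 2 / (nd m j ^ 2 - nd m k ^ 2)))
      = (∏ j ∈ Finset.range k, (nd m j ^ 2 / (nd m j ^ 2 - nd m k ^ 2))) *
      ∏ j ∈ Finset.Ioc k m, ((-1) * (nd m j ^ 2 / (nd m j ^ 2 - nd m k ^ 2))) := by
    rw [Finset.prod_mul_distrib, ← h3]; ring
  rw [h4]
  apply mul_nonneg
  · apply Finset.prod_nonneg
    intro j hj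
    have := ndsq_lt (Finset.mem_range.mp hj) hk
    apply div_nonneg (sq_nonneg _); linarith
  · apply Finset.prod_nonneg
    intro j hj
    obtain ⟨hj1, hj2⟩ := Finset.mem_Ioc.mp hj
    have := ndsq_lt hj1 hj2
    rw [← mul_div_assoc, neg_one_mul]
    apply div_nonneg_of_nonpos
    · have := sq_nonneg (nd m j); linarith
    · linarith

theorem bk_last (m : ℕ) : 1 ≤ bk m m := by
  rw [bk_eq]
  have h1 : (Finset.range (m + 1)).erase m = Finset.range m := by
    ext j; simp; omega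
  rw [h1]
  have : ∀ j ∈ Finset.range m, 1 ≤ nd m j ^ 2 / (nd m j ^ 2 - nd m m ^ 2) := by
    intro j hj
    have h2 := ndsq_lt (Finset.mem_range.mp hj) (le_refl m)
    rw [le_div_iff₀ (by linarith)]
    have := sq_nonneg (nd m m)
    linarith
  calc (1 : ℝ) = ∏ j ∈ Finset.range m, (1 : ℝ) := by simp
    _ ≤ _ := Finset.prod_le_prod (fun _ _ => zero_le_one) this

theorem eval_zero_eq {m : ℕ} {R : ℝ[X]} (hR : R.natDegree ≤ m) :
    R.eval 0 = ∑ k ∈ Finset.range (m + 1), R.eval (nd m k ^ 2) * bk m k := by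
  have hdeg : R.degree < ((Finset.range (m + 1)).card : ℕ) := by
    rw [Finset.card_range]
    exact lt_of_le_of_lt degree_le_natDegree (by exact_mod_cast Nat.lt_succ_of_le hR)
  have h := Lagrange.eq_interpolate (nd_inj m) hdeg
  conv_lhs => rw [h]
  rw [Lagrange.interpolate_apply, eval_finsetSum]
  apply Finset.sum_congr rfl
  intro k _
  rw [eval_mul, eval_C]
  rfl

theorem sum_bk (m : ℕ) : ∑ k ∈ Finset.range (m + 1), |bk m k| / nd m k = 2 * m + 1 := by
  have h := eval_zero_eq (chS_natDegree m)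
  rw [chS_zero] at h
  have h2 : ∀ k ∈ Finset.range (m + 1), |bk m k| / nd m k = (-1) ^ m * ((chS m).eval (nd m k ^ 2) * bk m k) := by
    intro k hk
    have hk' : k ≤ m := by simpa [Nat.lt_succ_iff] using hk
    have hpos := nd_pos hk'
    have he := chS_eval (k * Real.pi / (2 * m + 1)) m
    have h3 : (2 * (m : ℝ) + 1) * (k * Real.pi / (2 * m + 1)) = k * Real.pi := by
      have : (2 * (m : ℝ) + 1) ≠ 0 := by positivity
      field_simp
    rw [h3, Real.cos_nat_mul_pi] at he
    have he' : nd m k * (chS m).eval (nd m k ^ 2) = (-1) ^ k := he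
    have hs := bk_sign hk'
    have habs : |bk m k| = (-1) ^ (m + k) * bk m k := by
      rw [← abs_of_nonneg hs, abs_mul, abs_pow, abs_neg, abs_one, one_pow, one_mul]
    rw [habs, div_eq_iff hpos.ne', pow_add, ← he']
    ring
  rw [Finset.sum_congr rfl h2, ← Finset.mul_sum, ← h, ← mul_assoc, ← mul_pow]
  norm_num

/-- The extremal inequality. -/
theorem interp_bound {m : ℕ} {R : ℝ[X]} (hR : R.natDegree ≤ m) {ε : ℝ}
    (h1 : ∀ k ≤ m, |nd m k * R.eval (nd m k ^ 2)| ≤ 1)
    (h2 : nd m m * R.eval (nd m m ^ 2) ≤ 1 - ε) (hε : 0 ≤ ε) :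
    R.eval 0 ≤ (2 * m + 1) - ε / nd m m := by
  rw [eval_zero_eq hR, ← sum_bk m]
  rw [Finset.sum_range_succ, Finset.sum_range_succ (fun k => |bk m k| / nd m k)]
  have h3 : ∑ k ∈ Finset.range m, R.eval (nd m k ^ 2) * bk m k ≤ ∑ k ∈ Finset.range m, |bk m k| / nd m k := by
    apply Finset.sum_le_sum
    intro k hk
    have hk' : k ≤ m := (Finset.mem_range.mp hk).le
    have hpos := nd_pos hk'
    rw [le_div_iff₀ hpos]
    calc R.eval (nd m k ^ 2) * bk m k * nd m k = (nd m k * R.eval (nd m k ^ 2)) * bk m k := by ring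
      _ ≤ |(nd m k * R.eval (nd m k ^ 2)) * bk m k| := le_abs_self _
      _ = |nd m k * R.eval (nd m k ^ 2)| * |bk m k| := abs_mul _ _
      _ ≤ 1 * |bk m k| := mul_le_mul_of_nonneg_right (h1 k hk') (abs_nonneg _)
      _ = _ := one_mul _
  have hpos := nd_pos (le_refl m)
  have hb := bk_last m
  have h4 : R.eval (nd m m ^ 2) * bk m m ≤ |bk m m| / nd m m - ε / nd m m := by
    rw [← sub_div, le_div_iff₀ hpos, abs_of_pos (by linarith)]
    calc R.eval (nd m m ^ 2) * bk m m * nd m m = (nd m m * R.eval (nd m m ^ 2)) * bk m m := by ring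
      _ ≤ (1 - ε) * bk m m := mul_le_mul_of_nonneg_right h2 (by linarith)
      _ ≤ bk m m - ε := by nlinarith
  linarith

end Vale.Agent.P047
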