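import Mathlib

/-!
# P047: first absolute moments of sums of iid variables, from the central limit theorem
-/

namespace Vale.Agent.P047

open MeasureTheory ProbabilityTheory Filter Finset
open scoped Topology BoundedContinuousFunction

theorem integral_abs_gauss : ∫ x, |x| ∂(gaussianReal 0 1) = √(2 / Real.pi) := by
  rw [integral_gaussianReal_eq_integral_smul one_ne_zero]
  have h1 : ∀ x : ℝ, gaussianPDFReal 0 1 x • |x|
      = (fun y => (√(2 * Real.pi))⁻¹ * (y * Real.exp (-(y ^ 2) / 2))) |x| := by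
    intro x
    simp only [gaussianPDFReal, smul_eq_mul, sq_abs]
    push_cast
    simp only [mul_one, sub_zero]
    ring
  rw [integral_congr_ae (ae_of_all _ h1),
    integral_comp_abs (f := fun y => (√(2 * Real.pi))⁻¹ * (y * Real.exp (-(y ^ 2) / 2))), integral_const_mul]
  have h2 : ∫ y in Set.Ioi (0 : ℝ), y * Real.exp (-(y ^ 2) / 2) = 1 := by
    have hd : ∀ x ∈ Set.Ici (0 : ℝ), HasDerivAt (fun y : ℝ => - Real.exp (-(y ^ 2) / 2)) (x * Real.exp (-(x ^ 2) / 2)) x := by
      intro x _
      have e1 : HasDerivAt (fun y : ℝ => -(y ^ 2) / 2) (-((2 : ℕ) * x ^ (2 - 1)) / 2) x :=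
        ((hasDerivAt_pow 2 x).neg).div_const 2
      have e2 : (-(((2 : ℕ) : ℝ) * x ^ (2 - 1)) / 2) = -x := by norm_num; ring
      rw [e2] at e1
      have e3 : HasDerivAt (fun y : ℝ => - Real.exp (-(y ^ 2) / 2)) (-(Real.exp (-(x ^ 2) / 2) * -x)) x :=
        e1.exp.neg
      have e4 : -(Real.exp (-(x ^ 2) / 2) * -x) = x * Real.exp (-(x ^ 2) / 2) := by ring
      rw [e4] at e3
      exact e3
    have ht : Tendsto (fun y : ℝ => - Real.exp (-(y ^ 2) / 2)) atTop (𝓝 0) := by
      rw [← neg_zero]
      apply Tendsto.neg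
      apply Real.tendsto_exp_atBot.comp
      have : (fun y : ℝ => -(y ^ 2) / 2) = fun y => -(y ^ 2 / 2) := by funext y; ring
      rw [this]
      apply tendsto_neg_atTop_atBot.comp
      exact (tendsto_pow_atTop (by norm_num)).atTop_div_const (by norm_num)
    rw [integral_Ioi_of_hasDerivAt_of_nonneg' hd (fun x hx => mul_nonneg (le_of_lt hx) (Real.exp_pos _).le) ht]
    simp
  rw [h2, mul_one]
  have hpi := Real.pi_pos
  rw [← div_eq_mul_inv, div_eq_iff (by positivity)]
  rw [← Real.sqrt_mul (by positivity)]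
  have : 2 / Real.pi * (2 * Real.pi) = 2 ^ 2 := by field_simp
  rw [this, Real.sqrt_sq (by norm_num)]

theorem integrable_abs_gauss : Integrable (fun x : ℝ => |x|) (gaussianReal 0 1) := by
  by_contra h
  have := integral_undef h
  rw [integral_abs_gauss] at this
  have hpi := Real.pi_pos
  have h2 : 0 < √(2 / Real.pi) := Real.sqrt_pos.mpr (by positivity)
  linarith

/-- truncation of the absolute value -/
noncomputable def trunc (K : ℝ) (hK : 0 ≤ K) : ℝ →ᵇ ℝ :=
  BoundedContinuousFunction.ofNormedAddCommGroup (fun x => min |x| K) (by fun_prop) K (by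
    intro x
    rw [Real.norm_eq_abs, abs_of_nonneg (le_min (abs_nonneg x) hK)]
    exact min_le_right _ _)

theorem trunc_apply (K : ℝ) (hK : 0 ≤ K) (x : ℝ) : trunc K hK x = min |x| K := rfl

theorem exists_trunc {c : ℝ} (hc : c < √(2 / Real.pi)) :
    ∃ (K : ℝ) (hK : 0 ≤ K), c < ∫ x, trunc K hK x ∂(gaussianReal 0 1) := by
  have h : Tendsto (fun n : ℕ => ∫ x, min |x| (n : ℝ) ∂(gaussianReal 0 1)) atTop
      (𝓝 (∫ x, |x| ∂(gaussianReal 0 1))) := by
    apply tendsto_integral_of_dominated_convergence (fun x => |x|)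
    · intro n
      exact (by fun_prop : Measurable fun x : ℝ => min |x| (n : ℝ)).aestronglyMeasurable
    · exact integrable_abs_gauss
    · intro n
      apply ae_of_all
      intro x
      rw [Real.norm_eq_abs, abs_of_nonneg (le_min (abs_nonneg x) (Nat.cast_nonneg n))]
      exact min_le_left _ _
    · apply ae_of_all
      intro x
      apply tendsto_const_nhds.congr'
      filter_upwards [eventually_ge_atTop ⌈|x|⌉₊] with n hn
      rw [min_eq_left (Nat.ceil_le.mp hn)]
  rw [integral_abs_gauss] at h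
  obtain ⟨n, hn⟩ := (h.eventually (lt_mem_nhds hc)).exists
  exact ⟨n, Nat.cast_nonneg n, hn⟩

section
variable {α : Type} [Fintype α] [DecidableEq α]

/-- expectation of a function of `k` iid letters with weights `P` -/
noncomputable def avg (P : α → ℝ) (k : ℕ) (F : (Fin k → α) → ℝ) : ℝ :=
  ∑ a : Fin k → α, (∏ j, P (a j)) * F a

omit [DecidableEq α] in
theorem clt_abs (P w : α → ℝ) (hP : ∀ a, 0 ≤ P a) (h1 : ∑ a, P a = 1) (h0 : ∑ a, P a * w a = 0)
    {v : ℝ} (hv : ∑ a, P a * w a ^ 2 = v) (hv0 : 0 < v) {c : ℝ} (hc : c < √(2 * v / Real.pi)) :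
    ∀ᶠ k : ℕ in atTop, c * √(k : ℝ) ≤ avg P k (fun a => |∑ j, w (a j)|) := by
  let mα : MeasurableSpace α := ⊤
  have hsv : 0 < √v := Real.sqrt_pos.mpr hv0
  -- the single-letter law
  let p : PMF α := PMF.ofFintype (fun a => ENNReal.ofReal (P a)) (by
    rw [← ENNReal.ofReal_sum_of_nonneg (fun a _ => hP a), h1, ENNReal.ofReal_one])
  have hp : ∀ a, (p a).toReal = P a := fun a => by
    simp only [p, PMF.ofFintype_apply]
    exact ENNReal.toReal_ofReal (hP a)
  let μ : Measure α := p.toMeasure
  have hμ : ∀ F : α → ℝ, ∫ a, F a ∂μ = ∑ a, P a * F a := by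
    intro F
    simp only [μ]
    rw [PMF.integral_eq_sum]
    simp_rw [hp, smul_eq_mul]
  let Ω := ℕ → α
  let Q : Measure Ω := Measure.infinitePi (fun _ : ℕ => μ)
  let X : ℕ → Ω → ℝ := fun i ω => w (ω i) / √v
  have hXm : ∀ i, Measurable (X i) := by
    intro i
    have : Measurable (fun a : α => w a / √v) := measurable_from_top
    exact this.comp (measurable_pi_apply i)
  have hmapi : ∀ i, Q.map (fun ω => ω i) = μ := fun i => Measure.infinitePi_map_eval (fun _ : ℕ => μ) i
  have hint : ∀ (i : ℕ) (F : α → ℝ), ∫ ω, F (ω i) ∂Q = ∑ a, P a * F a := by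
    intro i F
    rw [← hμ F, ← hmapi i, integral_map (measurable_pi_apply i).aemeasurable]
    exact (measurable_from_top : Measurable F).aestronglyMeasurable
  have e0 : Q[X 0] = 0 := by
    have := hint 0 (fun a => w a / √v)
    rw [this]
    have h2 : ∑ a, P a * (w a / √v) = (∑ a, P a * w a) / √v := by
      rw [Finset.sum_div]; apply Finset.sum_congr rfl; intros; ring
    rw [h2, h0, zero_div]
  have e1 : Q[X 0 ^ 2] = 1 := by
    have := hint 0 (fun a => (w a / √v) ^ 2)
    have h3 : (X 0 ^ 2) = fun ω => (fun a => (w a / √v) ^ 2) (ω 0) := by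
      funext ω; rfl
    rw [h3, this]
    have h2 : ∑ a, P a * (w a / √v) ^ 2 = (∑ a, P a * w a ^ 2) / v := by
      rw [Finset.sum_div]; apply Finset.sum_congr rfl; intro a _
      rw [div_pow, Real.sq_sqrt hv0.le]; ring
    rw [h2, hv, div_self hv0.ne']
  have hindep : iIndepFun X Q :=
    iIndepFun_infinitePi (P := fun _ : ℕ => μ) (X := fun _ a => w a / √v) (fun _ => measurable_from_top)
  have hident : ∀ i, IdentDistrib (X i) (X 0) Q Q := by
    intro i
    refine ⟨(hXm i).aemeasurable, (hXm 0).aemeasurable, ?_⟩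
    have hg : Measurable (fun a : α => w a / √v) := measurable_from_top
    have h2 : ∀ j, Q.map (X j) = μ.map (fun a => w a / √v) := by
      intro j
      rw [← hmapi j, Measure.map_map hg (measurable_pi_apply j)]
      rfl
    rw [h2, h2]
  have hclt := tendstoInDistribution_inv_sqrt_mul_sum (Y := (id : ℝ → ℝ)) (P' := gaussianReal 0 1)
    HasLaw.id e0 e1 hindep hident
  have ht := ProbabilityMeasure.tendsto_iff_forall_integral_tendsto.mp hclt.tendsto
  have hc' : c / √v < √(2 / Real.pi) := by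
    rw [div_lt_iff₀ hsv, ← Real.sqrt_mul (by positivity)]
    have : 2 / Real.pi * v = 2 * v / Real.pi := by ring
    rwa [this]
  obtain ⟨K, hK, hKc⟩ := exists_trunc hc'
  have ht2 := ht (trunc K hK)
  simp only [ProbabilityMeasure.coe_mk, Measure.map_id] at ht2
  filter_upwards [ht2.eventually (lt_mem_nhds hKc), eventually_gt_atTop 0] with k hk hk0
  have hsk : 0 < √(k : ℝ) := Real.sqrt_pos.mpr (by exact_mod_cast hk0)
  rw [integral_map] at hk
  rotate_left
  · exact (Measurable.const_mul (Finset.measurable_fun_sum _ (fun i _ => hXm i)) _).aemeasurable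
  · exact (trunc K hK).continuous.aestronglyMeasurable
  -- bound the truncated integral by the full first absolute moment
  have hfin : ∫ ω, |(√(k : ℝ))⁻¹ * ∑ i ∈ Finset.range k, X i ω| ∂Q
      = (√(k : ℝ))⁻¹ * (avg P k (fun a => |∑ j, w (a j)|) / √v) := by
    have hmap : Q.map (fun (ω : ℕ → α) (i : Fin k) => ω i) = Measure.pi (fun _ : Fin k => μ) := by
      rw [← Measure.infinitePi_eq_pi]
      exact Measure.map_infinitePi_infinitePi_of_inj (P := fun _ : ℕ => μ) (f := fun i : Fin k => (i : ℕ))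
        Fin.val_injective
    have h2 : ∀ ω : Ω, |(√(k : ℝ))⁻¹ * ∑ i ∈ Finset.range k, X i ω|
        = (fun a : Fin k → α => (√(k : ℝ))⁻¹ * (|∑ j, w (a j)| / √v)) (fun i => ω i) := by
      intro ω
      simp only [X]
      rw [← Finset.sum_div, abs_mul, abs_div, abs_of_pos hsv, abs_of_pos (inv_pos.mpr hsk),
        Finset.sum_range]
    simp_rw [h2]
    have hmeas : Measurable (fun (ω : ℕ → α) (i : Fin k) => ω i) := by fun_prop
    rw [← integral_map (φ := fun (ω : ℕ → α) (i : Fin k) => ω i)
      (f := fun a : Fin k → α => (√(k : ℝ))⁻¹ * (|∑ j, w (a j)| / √v)) hmeas.aemeasurable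
      (Measurable.of_discrete).aestronglyMeasurable, hmap]
    rw [integral_fintype (Integrable.of_finite)]
    unfold avg
    rw [Finset.sum_div, Finset.mul_sum]
    apply Finset.sum_congr rfl
    intro a _
    have h3 : (Measure.pi (fun _ : Fin k => μ)).real {a} = ∏ j, P (a j) := by
      rw [measureReal_def, Measure.pi_singleton, ENNReal.toReal_prod]
      apply Finset.prod_congr rfl
      intro j _
      simp only [μ]
      rw [PMF.toMeasure_apply_singleton _ _ (measurableSet_singleton _)]
      exact hp _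
    rw [h3, smul_eq_mul]
    ring
  have hle : ∫ ω, trunc K hK ((√(k : ℝ))⁻¹ * ∑ i ∈ Finset.range k, X i ω) ∂Q
      ≤ ∫ ω, |(√(k : ℝ))⁻¹ * ∑ i ∈ Finset.range k, X i ω| ∂Q := by
    have hm1 : Measurable (fun ω : Ω => (√(k : ℝ))⁻¹ * ∑ i ∈ Finset.range k, X i ω) :=
      Measurable.const_mul (Finset.measurable_fun_sum _ (fun i _ => hXm i)) _
    have hbound : ∀ a : α, |w a / √v| ≤ ∑ b, |w b / √v| := fun a =>
      Finset.single_le_sum (f := fun b => |w b / √v|) (fun b _ => abs_nonneg _) (Finset.mem_univ a)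
    apply integral_mono
    · apply Integrable.of_bound ((trunc K hK).continuous.measurable.comp hm1).aestronglyMeasurable K
      apply ae_of_all
      intro ω
      rw [Function.comp_apply, trunc_apply, Real.norm_eq_abs, abs_of_nonneg (le_min (abs_nonneg _) hK)]
      exact min_le_right _ _
    · apply Integrable.of_bound (hm1.abs).aestronglyMeasurable
        ((√(k : ℝ))⁻¹ * ∑ _i ∈ Finset.range k, ∑ b, |w b / √v|)
      apply ae_of_all
      intro ω
      rw [Real.norm_eq_abs, abs_abs, abs_mul, abs_of_pos (inv_pos.mpr hsk)]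
      apply mul_le_mul_of_nonneg_left _ (inv_pos.mpr hsk).le
      exact (Finset.abs_sum_le_sum_abs _ _).trans (Finset.sum_le_sum (fun i _ => hbound _))
    · intro ω
      exact min_le_left _ _
  have hfinal : c / √v < (√(k : ℝ))⁻¹ * (avg P k (fun a => |∑ j, w (a j)|) / √v) :=
    lt_of_lt_of_le hk (hle.trans hfin.le)
  rw [← mul_div_assoc, div_lt_div_iff_of_pos_right hsv, inv_mul_eq_div, lt_div_iff₀ hsk] at hfinal
  exact hfinal.le

end

end Vale.Agent.P047
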