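import Vale.Agent.P047.Biased

/-!
# P047: the quantity `M(d)`, composition and the dichotomy
-/

namespace Vale.Agent.P047

open Finset

/-- `M(d)`: the supremum of `∑_i f̂({i})` over all `n ≥ 1` and all `f : {-1,1}^n → {-1,1}` of
degree at most `d`. -/
noncomputable def M (d : ℕ) : ℝ :=
  sSup {s : ℝ | ∃ (n : ℕ) (f : (Fin n → ℤˣ) → ℤˣ), 1 ≤ n ∧
    (∀ S : Finset (Fin n), d < S.card → fhat (fun x => ((f x : ℤ) : ℝ)) S = 0) ∧
    s = ∑ i, fhat (fun x => ((f x : ℤ) : ℝ)) {i}}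

theorem isBool_units {ι : Type*} (f : (ι → ℤˣ) → ℤˣ) : IsBool (fun x => ((f x : ℤ) : ℝ)) := by
  intro x
  rcases Int.units_eq_one_or (f x) with h | h <;> simp [h]

theorem exists_units {ι : Type*} {f : (ι → ℤˣ) → ℝ} (hf : IsBool f) :
    ∃ g : (ι → ℤˣ) → ℤˣ, f = fun x => ((g x : ℤ) : ℝ) := by
  classical
  refine ⟨fun x => if f x = 1 then 1 else -1, ?_⟩
  funext x
  rcases hf x with h | h
  · simp [h]
  · have : ¬ ((-1 : ℝ) = 1) := by norm_num
    simp [h, this]

section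
variable {ι κ : Type*} [Fintype ι] [DecidableEq ι] [Fintype κ] [DecidableEq κ]

theorem lin_pull (e : κ ≃ ι) (f : (κ → ℤˣ) → ℝ) :
    lin (fun x : ι → ℤˣ => f (fun k => x (e k))) = lin f := by
  rw [lin_eq, lin_eq, Fintype.card_congr e]
  congr 1
  apply Fintype.sum_equiv (Equiv.arrowCongr e.symm (Equiv.refl ℤˣ))
  intro x
  have h1 : (Equiv.arrowCongr e.symm (Equiv.refl ℤˣ)) x = fun k => x (e k) := by
    funext k; simp [Equiv.arrowCongr]
  rw [h1]
  congr 1
  exact (Equiv.sum_comp e (fun i => ((x i : ℤ) : ℝ))).symm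

theorem bddAbove_M (d : ℕ) : BddAbove {s : ℝ | ∃ (n : ℕ) (f : (Fin n → ℤˣ) → ℤˣ), 1 ≤ n ∧
    (∀ S : Finset (Fin n), d < S.card → fhat (fun x => ((f x : ℤ) : ℝ)) S = 0) ∧
    s = ∑ i, fhat (fun x => ((f x : ℤ) : ℝ)) {i}} := by
  refine ⟨d, ?_⟩
  rintro s ⟨n, f, _, hf, rfl⟩
  exact lin_le ((mem_low_iff _).mpr hf) (isBool_units f)

theorem le_M [Nonempty ι] {d : ℕ} {f : (ι → ℤˣ) → ℝ} (hf : f ∈ Low ι d) (hb : IsBool f) :
    lin f ≤ M d := by
  apply le_csSup (bddAbove_M d)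
  let e := Fintype.equivFin ι
  have hb' : IsBool (fun x : Fin (Fintype.card ι) → ℤˣ => f (fun k => x (e k))) := fun x => hb _
  obtain ⟨g, hg⟩ := exists_units hb'
  refine ⟨Fintype.card ι, g, Fintype.card_pos, ?_, ?_⟩
  · rw [← hg]
    exact (mem_low_iff _).mp (low_pull e.toEmbedding hf)
  · rw [← hg]
    exact (lin_pull e f).symm

theorem M_le {d : ℕ} {c : ℝ} (h : ∀ (n : ℕ) (f : (Fin n → ℤˣ) → ℝ), 1 ≤ n → f ∈ Low (Fin n) d →
    IsBool f → lin f ≤ c) : M d ≤ c := by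
  apply csSup_le
  · refine ⟨0, 1, fun _ => 1, le_rfl, ?_, ?_⟩
    · have := (mem_low_iff (ι := Fin 1) (fun _ => (((1 : ℤˣ) : ℤ) : ℝ))).mp (low_const _ d)
      exact this
    · have h1 : lin (fun _ : Fin 1 → ℤˣ => (((1 : ℤˣ) : ℤ) : ℝ)) = 0 := by
        rw [lin_eq]
        simp
        have := sum_chi ({0} : Finset (Fin 1))
        simp only [chi, Finset.prod_singleton, Finset.singleton_ne_empty, if_false] at this
        exact this
      exact h1.symm
  · rintro s ⟨n, f, hn, hf, rfl⟩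
    exact h n _ hn ((mem_low_iff _).mpr hf) (isBool_units f)

theorem M_mono {d e : ℕ} (h : d ≤ e) : M d ≤ M e := by
  apply M_le
  intro n f hn hf hb
  have : Nonempty (Fin n) := ⟨⟨0, hn⟩⟩
  exact le_M (low_mono h hf) hb

theorem one_le_M {d : ℕ} (hd : 1 ≤ d) : 1 ≤ M d := by
  have h := le_M (ι := Fin 1) (d := d) (f := fun x => ((x 0 : ℤ) : ℝ))
    (low_mono hd (low_coord 0)) (fun x => by
      rcases Int.units_eq_one_or (x 0) with h | h <;> simp [h])
  have h2 : lin (fun x : Fin 1 → ℤˣ => ((x 0 : ℤ) : ℝ)) = 1 := by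
    rw [lin_eq]
    simp [units_sq]
  linarith

theorem M_nonneg (d : ℕ) : 0 ≤ M d := by
  have h := le_M (ι := Fin 1) (d := d) (f := fun x => 1) (low_const 1 d) (fun x => Or.inl rfl)
  have h2 : lin (fun _ : Fin 1 → ℤˣ => (1 : ℝ)) = 0 := by
    rw [lin_eq]
    have := sum_chi ({0} : Finset (Fin 1))
    simp only [chi, Finset.prod_singleton, Finset.singleton_ne_empty, if_false] at this
    simpa using this
  linarith

theorem M_le_self (d : ℕ) : M d ≤ d := M_le (fun _ _ _ hf hb => lin_le hf hb)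

/-- sum over the product cube of block products -/
theorem sum_blocks (F : ι → (κ → ℤˣ) → ℝ) :
    ∑ x : ι × κ → ℤˣ, ∏ i, F i (fun k => x (i, k)) = ∏ i, ∑ y : κ → ℤˣ, F i y := by
  rw [← sum_pi_prod F]
  apply Fintype.sum_equiv (Equiv.curry ι κ ℤˣ)
  intro x
  rfl

theorem sum_lin_one : ∑ y : κ → ℤˣ, ∑ k, ((y k : ℤ) : ℝ) = 0 := by
  rw [Finset.sum_comm]
  apply Finset.sum_eq_zero
  intro k _
  have := sum_chi ({k} : Finset κ)
  simp only [chi, Finset.prod_singleton, Finset.singleton_ne_empty, if_false] at this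
  exact this

theorem block_term (g : (κ → ℤˣ) → ℝ) (hg : ∑ y, g y = 0) (S : Finset ι) (i : ι) :
    ∑ x : ι × κ → ℤˣ, (∏ j ∈ S, g (fun k => x (j, k))) * ∑ k, ((x (i, k) : ℤ) : ℝ)
      = if S = {i} then 2 ^ (Fintype.card ι * Fintype.card κ) * lin g else 0 := by
  have h : ∀ x : ι × κ → ℤˣ, (∏ j ∈ S, g (fun k => x (j, k))) * ∑ k, ((x (i, k) : ℤ) : ℝ)
      = ∏ j, ((if j ∈ S then g (fun k => x (j, k)) else 1) *
          (if j = i then ∑ k, ((x (j, k) : ℤ) : ℝ) else 1)) := by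
    intro x
    rw [Finset.prod_mul_distrib, Finset.prod_ite_mem, Finset.univ_inter]
    congr 1
    rw [Finset.prod_ite_eq' Finset.univ i]
    simp
  simp_rw [h]
  rw [sum_blocks (fun j y => ((if j ∈ S then g y else 1) *
          (if j = i then ∑ k, ((y k : ℤ) : ℝ) else 1)))]
  split_ifs with hS
  · subst hS
    rw [← Finset.mul_prod_erase Finset.univ _ (Finset.mem_univ i)]
    have h1 : ∀ j ∈ Finset.univ.erase i, (∑ y : κ → ℤˣ, ((if j ∈ ({i} : Finset ι) then g y else 1) *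
          (if j = i then ∑ k, ((y k : ℤ) : ℝ) else 1))) = 2 ^ Fintype.card κ := by
      intro j hj
      have hji : j ≠ i := Finset.ne_of_mem_erase hj
      simp [hji]
    rw [Finset.prod_congr rfl h1, Finset.prod_const, Finset.card_erase_of_mem (Finset.mem_univ i),
      Finset.card_univ]
    simp only [Finset.mem_singleton, if_true]
    rw [lin_eq]
    have hc : Fintype.card ι = (Fintype.card ι - 1) + 1 := by
      have := Fintype.card_pos_iff.mpr ⟨i⟩
      omega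
    have h2 : (2 : ℝ) ^ (Fintype.card ι * Fintype.card κ)
        = (2 ^ Fintype.card κ) ^ (Fintype.card ι - 1) * 2 ^ Fintype.card κ := by
      rw [← pow_succ, ← hc, ← pow_mul, mul_comm]
    rw [h2]
    field_simp
  · by_cases hi : i ∈ S
    · have : ∃ j ∈ S, j ≠ i := by
        by_contra hcon
        push Not at hcon
        exact hS (Finset.eq_singleton_iff_unique_mem.mpr ⟨hi, hcon⟩)
      obtain ⟨j, hj, hji⟩ := this
      apply Finset.prod_eq_zero (Finset.mem_univ j)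
      simp [hj, hji, hg]
    · apply Finset.prod_eq_zero (Finset.mem_univ i)
      simp only [hi, if_false, if_true, one_mul]
      exact sum_lin_one

omit [Fintype κ] [DecidableEq κ] in
/-- block composition -/
theorem comp_expand (f : (ι → ℤˣ) → ℝ) (G : (κ → ℤˣ) → ℤˣ) (x : ι × κ → ℤˣ) :
    f (fun i => G (fun k => x (i, k)))
      = ∑ S : Finset ι, fhat f S * ∏ i ∈ S, ((G (fun k => x (i, k)) : ℤ) : ℝ) :=
  inversion f _

theorem comp_low {d e : ℕ} {f : (ι → ℤˣ) → ℝ} (hf : f ∈ Low ι d) {G : (κ → ℤˣ) → ℤˣ}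
    (hG : (fun y => ((G y : ℤ) : ℝ)) ∈ Low κ e) :
    (fun x : ι × κ → ℤˣ => f (fun i => G (fun k => x (i, k)))) ∈ Low (ι × κ) (d * e) := by
  have h : (fun x : ι × κ → ℤˣ => f (fun i => G (fun k => x (i, k))))
      = fun x => ∑ S : Finset ι, fhat f S * ∏ i ∈ S, ((G (fun k => x (i, k)) : ℤ) : ℝ) := by
    funext x; exact comp_expand f G x
  rw [h]
  apply low_sum
  intro S _
  by_cases hS : S.card ≤ d
  · apply low_smul
    refine low_mono (Nat.mul_le_mul_right e hS) (low_prod S _ ?_)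
    intro i _
    exact low_pull (⟨fun k => (i, k), fun a b h => (Prod.mk.inj h).2⟩ : κ ↪ ι × κ) hG
  · rw [(mem_low_iff f).mp hf S (by omega)]
    simpa using low_const (ι := ι × κ) 0 (d * e)

theorem comp_lin (f : (ι → ℤˣ) → ℝ) (G : (κ → ℤˣ) → ℤˣ) (hG : ∑ y, ((G y : ℤ) : ℝ) = 0) :
    lin (fun x : ι × κ → ℤˣ => f (fun i => G (fun k => x (i, k))))
      = lin f * lin (fun y => ((G y : ℤ) : ℝ)) := by
  rw [lin_eq]
  have h : ∀ x : ι × κ → ℤˣ, f (fun i => G (fun k => x (i, k))) * ∑ i, ((x i : ℤ) : ℝ)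
      = ∑ S : Finset ι, ∑ i : ι, fhat f S * ((∏ j ∈ S, ((G (fun k => x (j, k)) : ℤ) : ℝ))
          * ∑ k, ((x (i, k) : ℤ) : ℝ)) := by
    intro x
    rw [comp_expand f G x, Fintype.sum_prod_type, Finset.sum_mul]
    apply Finset.sum_congr rfl
    intro S _
    rw [Finset.mul_sum]
    apply Finset.sum_congr rfl
    intro i _
    ring
  simp_rw [h]
  rw [Finset.sum_comm]
  have h2 : ∀ S : Finset ι, ∑ x : ι × κ → ℤˣ, ∑ i : ι, fhat f S * ((∏ j ∈ S, ((G (fun k => x (j, k)) : ℤ) : ℝ))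
          * ∑ k, ((x (i, k) : ℤ) : ℝ))
      = ∑ i : ι, fhat f S * (if S = {i} then 2 ^ (Fintype.card ι * Fintype.card κ) * lin (fun y => ((G y : ℤ) : ℝ)) else 0) := by
    intro S
    rw [Finset.sum_comm]
    apply Finset.sum_congr rfl
    intro i _
    rw [← Finset.mul_sum, block_term _ hG]
  simp_rw [h2]
  rw [Finset.sum_comm]
  simp only [mul_ite, mul_zero, Finset.sum_ite_eq', Finset.mem_univ, if_true]
  rw [Fintype.card_prod]
  unfold lin
  rw [← Finset.sum_mul]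
  field_simp

end

section odd
variable {ι : Type*} [Fintype ι] [DecidableEq ι]

/-- the odd lift `(y, x) ↦ y f(yx)` -/
noncomputable def oddLift (f : (ι → ℤˣ) → ℝ) (x : Option ι → ℤˣ) : ℝ :=
  ((x none : ℤ) : ℝ) * f (fun i => x none * x (some i))

theorem units_pow (u : ℤˣ) (n : ℕ) : ((u : ℤ) : ℝ) ^ n = if Even n then 1 else ((u : ℤ) : ℝ) := by
  split_ifs with h
  · obtain ⟨k, rfl⟩ := h
    rw [pow_add, ← mul_pow, units_sq, one_pow]
  · rw [Nat.not_even_iff_odd] at h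
    obtain ⟨k, rfl⟩ := h
    rw [pow_succ, pow_mul, sq, units_sq, one_pow, one_mul]

theorem oddLift_low {d : ℕ} (hd : Odd d) {f : (ι → ℤˣ) → ℝ} (hf : f ∈ Low ι d) :
    oddLift f ∈ Low (Option ι) d := by
  have h : oddLift f = fun x => ∑ S : Finset ι, fhat f S *
      (((x none : ℤ) : ℝ) ^ (S.card + 1) * ∏ i ∈ S, ((x (some i) : ℤ) : ℝ)) := by
    funext x
    unfold oddLift
    rw [inversion f, Finset.mul_sum]
    apply Finset.sum_congr rfl
    intro S _
    unfold chi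
    have : ∀ i, (((x none * x (some i) : ℤˣ) : ℤ) : ℝ) = ((x none : ℤ) : ℝ) * ((x (some i) : ℤ) : ℝ) := by
      intro i; push_cast; rfl
    simp_rw [this]
    rw [Finset.prod_mul_distrib, Finset.prod_const]
    ring
  rw [h]
  apply low_sum
  intro S _
  by_cases hS : S.card ≤ d
  · apply low_smul
    have h1 : (fun x : Option ι → ℤˣ => ∏ i ∈ S, ((x (some i) : ℤ) : ℝ)) ∈ Low (Option ι) S.card :=
      low_pull (⟨some, Option.some_injective ι⟩ : ι ↪ Option ι) (chi_mem_low (le_refl S.card))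
    simp_rw [units_pow]
    split_ifs with he
    · simpa using low_mono hS h1
    · have hne : S.card ≠ d := by
        intro h0
        rw [h0] at he
        exact he (Odd.add_one hd)
      have h2 := low_mul (low_coord (none : Option ι)) h1
      exact low_mono (by omega) h2
  · rw [(mem_low_iff f).mp hf S (by omega)]
    simpa using low_const (ι := Option ι) 0 d

theorem sum_option (H : (Option ι → ℤˣ) → ℝ) :
    ∑ x : Option ι → ℤˣ, H x
      = ∑ u : ℤˣ, ∑ y : ι → ℤˣ, H (fun o => o.elim u (fun i => u * y i)) := by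
  rw [← Fintype.sum_prod_type' (f := fun (u : ℤˣ) (y : ι → ℤˣ) => H (fun o : Option ι => o.elim u (fun i => u * y i)))]
  symm
  refine Fintype.sum_bijective (fun p : ℤˣ × (ι → ℤˣ) => (fun o : Option ι => o.elim p.1 (fun i => p.1 * p.2 i)))
    ?_ _ _ (fun p => rfl)
  constructor
  · rintro ⟨u, y⟩ ⟨v, z⟩ h
    have h0 : u = v := congrFun h none
    subst h0
    have h1 : y = z := by
      funext i
      have := congrFun h (some i)
      exact mul_left_cancel this
    rw [h1]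
  · intro x
    refine ⟨(x none, fun i => (x none)⁻¹ * x (some i)), ?_⟩
    funext o
    cases o with
    | none => rfl
    | some i =>
      simp only [Option.elim_some]
      rw [← mul_assoc, mul_inv_cancel, one_mul]

theorem oddLift_sum (f : (ι → ℤˣ) → ℝ) : ∑ x, oddLift f x = 0 := by
  rw [sum_option]
  have : ∀ u : ℤˣ, ∀ y : ι → ℤˣ, oddLift f (fun o => o.elim u (fun i => u * y i)) = ((u : ℤ) : ℝ) * f y := by
    intro u y
    unfold oddLift
    simp only [Option.elim_none, Option.elim_some]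
    congr 2
    funext i
    rw [← mul_assoc, Int.units_mul_self, one_mul]
  simp_rw [this, ← Finset.mul_sum]
  rw [units_sum]
  simp

theorem oddLift_lin (f : (ι → ℤˣ) → ℝ) : lin (oddLift f) = lin f + fhat f ∅ := by
  rw [lin_eq, sum_option]
  have : ∀ u : ℤˣ, ∀ y : ι → ℤˣ, oddLift f (fun o => o.elim u (fun i => u * y i))
      * (∑ o : Option ι, (((o.elim u (fun i => u * y i) : ℤˣ) : ℤ) : ℝ)) = f y * (∑ i, ((y i : ℤ) : ℝ)) + f y := by
    intro u y
    unfold oddLift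
    rw [Fintype.sum_option]
    simp only [Option.elim_none, Option.elim_some]
    have h1 : (fun i => u * (u * y i)) = y := by
      funext i
      rw [← mul_assoc, Int.units_mul_self, one_mul]
    rw [h1]
    push_cast
    rw [← Finset.mul_sum]
    have h2 := units_sq u
    calc ((u : ℤ) : ℝ) * f y * (((u : ℤ) : ℝ) + ((u : ℤ) : ℝ) * ∑ i, ((y i : ℤ) : ℝ))
        = (((u : ℤ) : ℝ) * ((u : ℤ) : ℝ)) * (f y * (∑ i, ((y i : ℤ) : ℝ)) + f y) := by ring
      _ = _ := by rw [h2, one_mul]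
  simp_rw [this]
  rw [units_sum, lin_eq, Fintype.card_option, pow_succ]
  unfold fhat
  simp only [Finset.prod_empty, mul_one]
  rw [Finset.sum_add_distrib]
  field_simp
  ring

omit [Fintype ι] [DecidableEq ι] in
theorem oddLift_bool {f : (ι → ℤˣ) → ℝ} (hb : IsBool f) : IsBool (oddLift f) := by
  intro x
  unfold oddLift
  rcases Int.units_eq_one_or (x none) with h | h <;> rcases hb (fun i => x none * x (some i)) with h' | h' <;>
    rw [h'] <;> rw [h] <;> simp

/-- the dual `x ↦ -f(-x)` -/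
noncomputable def dual (f : (ι → ℤˣ) → ℝ) (x : ι → ℤˣ) : ℝ := - f (fun i => - x i)

theorem fhat_dual (f : (ι → ℤˣ) → ℝ) (S : Finset ι) : fhat (dual f) S = - ((-1) ^ S.card * fhat f S) := by
  unfold fhat dual
  have h : ∑ x : ι → ℤˣ, -f (fun i => -x i) * ∏ i ∈ S, ((x i : ℤ) : ℝ)
      = ∑ x : ι → ℤˣ, -f x * ∏ i ∈ S, (((- x i : ℤˣ) : ℤ) : ℝ) := by
    refine Fintype.sum_equiv (Equiv.neg (ι → ℤˣ)) _ _ ?_
    intro x
    have : (Equiv.neg (ι → ℤˣ)) x = fun i => - x i := rfl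
    rw [this]
    simp
  rw [h]
  have h2 : ∀ x : ι → ℤˣ, ∏ i ∈ S, (((- x i : ℤˣ) : ℤ) : ℝ) = (-1) ^ S.card * ∏ i ∈ S, ((x i : ℤ) : ℝ) := by
    intro x
    have : ∀ i ∈ S, (((- x i : ℤˣ) : ℤ) : ℝ) = (-1) * ((x i : ℤ) : ℝ) := by
      intro i _; push_cast; ring
    rw [Finset.prod_congr rfl this, Finset.prod_mul_distrib, Finset.prod_const]
  simp_rw [h2]
  rw [← mul_div_assoc, Finset.mul_sum, ← neg_div, ← Finset.sum_neg_distrib]
  congr 1
  apply Finset.sum_congr rfl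
  intro x _
  ring

theorem dual_low {d : ℕ} {f : (ι → ℤˣ) → ℝ} (hf : f ∈ Low ι d) : dual f ∈ Low ι d := by
  rw [mem_low_iff]
  intro S hS
  rw [fhat_dual, (mem_low_iff f).mp hf S hS]
  simp

theorem dual_lin (f : (ι → ℤˣ) → ℝ) : lin (dual f) = lin f := by
  unfold lin
  simp_rw [fhat_dual]
  simp

omit [Fintype ι] [DecidableEq ι] in
theorem dual_bool {f : (ι → ℤˣ) → ℝ} (hb : IsBool f) : IsBool (dual f) := by
  intro x
  unfold dual
  rcases hb (fun i => - x i) with h | h <;> rw [h] <;> simp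

/-- For odd `d` one may take balanced functions. -/
theorem exists_balanced {d : ℕ} (hd : Odd d) {f : (ι → ℤˣ) → ℝ} (hf : f ∈ Low ι d) (hb : IsBool f) :
    ∃ G : (Option ι → ℤˣ) → ℤˣ, (fun y => ((G y : ℤ) : ℝ)) ∈ Low (Option ι) d ∧
      ∑ y, ((G y : ℤ) : ℝ) = 0 ∧ lin f ≤ lin (fun y => ((G y : ℤ) : ℝ)) := by
  have key : ∀ g : (ι → ℤˣ) → ℝ, g ∈ Low ι d → IsBool g → 0 ≤ fhat g ∅ → lin g = lin f →
      ∃ G : (Option ι → ℤˣ) → ℤˣ, (fun y => ((G y : ℤ) : ℝ)) ∈ Low (Option ι) d ∧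
      ∑ y, ((G y : ℤ) : ℝ) = 0 ∧ lin f ≤ lin (fun y => ((G y : ℤ) : ℝ)) := by
    intro g hg hgb h0 hl
    obtain ⟨G, hG⟩ := exists_units (oddLift_bool hgb)
    refine ⟨G, ?_, ?_, ?_⟩
    · rw [← hG]; exact oddLift_low hd hg
    · have := oddLift_sum g
      rw [hG] at this
      exact this
    · rw [← hG, oddLift_lin, hl]; linarith
  by_cases h0 : 0 ≤ fhat f ∅
  · exact key f hf hb h0 rfl
  · apply key (dual f) (dual_low hf) (dual_bool hb) _ (dual_lin f)
    rw [fhat_dual]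
    simp only [Finset.card_empty, pow_zero, one_mul]
    linarith

end odd

theorem M_mul_le {d e : ℕ} (he : Odd e) : M d * M e ≤ M (d * e) := by
  have he1 : 1 ≤ e := he.pos
  have hMe : 0 < M e := lt_of_lt_of_le one_pos (one_le_M he1)
  rw [← le_div_iff₀ hMe]
  apply M_le
  intro n f hn hf hb
  by_cases hs : 0 < lin f
  · rw [le_div_iff₀ hMe, ← le_div_iff₀' hs]
    apply M_le
    intro m g hm hg hgb
    obtain ⟨G, h1, h2, h3⟩ := exists_balanced he hg hgb
    rw [le_div_iff₀' hs]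
    have : Nonempty (Fin n × Option (Fin m)) := ⟨(⟨0, hn⟩, none)⟩
    have h4 := le_M (comp_low hf h1) (fun x => hb _)
    rw [comp_lin f G h2] at h4
    exact (mul_le_mul_of_nonneg_left h3 hs.le).trans h4
  · exact (not_lt.mp hs).trans (div_nonneg (M_nonneg _) hMe.le)

theorem M_pow_le {d : ℕ} (hd : Odd d) (k : ℕ) : M d ^ k ≤ M (d ^ k) := by
  induction k with
  | zero => simpa using one_le_M (le_refl 1)
  | succ k ih =>
    rw [pow_succ, pow_succ]
    calc M d ^ k * M d ≤ M (d ^ k) * M d := mul_le_mul_of_nonneg_right ih (M_nonneg d)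
      _ ≤ M (d ^ k * d) := M_mul_le hd

/-- Dichotomy. -/
theorem dichotomy {d₀ : ℕ} (hd : Odd d₀) (h : √(d₀ : ℝ) < M d₀) :
    ∃ ε > 0, ∃ c > 0, ∀ d : ℕ, 1 ≤ d → c * (d : ℝ) ^ ((1 : ℝ) / 2 + ε) ≤ M d := by
  have hd1 : d₀ ≠ 1 := by
    rintro rfl
    have := M_le_self 1
    simp at h this
    linarith
  have hd2 : 1 < d₀ := by
    have := hd.pos
    omega
  have hd3 : (1 : ℝ) < d₀ := by exact_mod_cast hd2
  have hr1 : 1 < √(d₀ : ℝ) := by
    rw [Real.lt_sqrt (by norm_num)]; simpa using hd3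
  set r := M d₀ with hr
  have hr0 : 1 < r := hr1.trans h
  have hlog : 0 < Real.log d₀ := Real.log_pos hd3
  set α := Real.log r / Real.log d₀ with hα
  have hα1 : 1 / 2 < α := by
    rw [hα, lt_div_iff₀ hlog]
    have h1 : Real.log (√(d₀ : ℝ)) < Real.log r := Real.log_lt_log (by linarith) h
    rw [Real.log_sqrt (by linarith)] at h1
    linarith
  have hdα : (d₀ : ℝ) ^ α = r := by
    rw [Real.rpow_def_of_pos (by linarith), hα, mul_div_cancel₀ _ hlog.ne', Real.exp_log (by linarith)]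
  refine ⟨α - 1 / 2, by linarith, 1 / r, by positivity, ?_⟩
  intro d hd'
  have h0 : (1 : ℝ) / 2 + (α - 1 / 2) = α := by ring
  rw [h0]
  set k := Nat.log d₀ d with hk
  have h1 : d₀ ^ k ≤ d := Nat.pow_log_le_self d₀ (by omega)
  have h2 : d < d₀ ^ (k + 1) := Nat.lt_pow_succ_log_self hd2 d
  have h3 : (d : ℝ) ^ α ≤ r ^ (k + 1) := by
    have : (d : ℝ) ≤ (d₀ : ℝ) ^ (k + 1) := by exact_mod_cast h2.le
    calc (d : ℝ) ^ α ≤ ((d₀ : ℝ) ^ (k + 1)) ^ α := Real.rpow_le_rpow (by positivity) this (by linarith)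
      _ = ((d₀ : ℝ) ^ α) ^ (k + 1) := by
        rw [← Real.rpow_natCast, ← Real.rpow_mul (by linarith), mul_comm, Real.rpow_mul (by linarith),
          Real.rpow_natCast]
      _ = _ := by rw [hdα]
  have h4 : r ^ k ≤ M d := (M_pow_le hd k).trans (M_mono h1)
  rw [one_div, inv_mul_le_iff₀ (by linarith)]
  calc (d : ℝ) ^ α ≤ r ^ (k + 1) := h3
    _ = r * r ^ k := by ring
    _ ≤ r * M d := by nlinarith

end Vale.Agent.P047
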