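import Vale.Agent.P047.Comp

/-!
# P047: nonnegative combinations of subcubes
-/

namespace Vale.Agent.P047

open Finset Polynomial

/-- Indicator function of the subcube `{x : x_i = 1 for i ∈ A, x_i = -1 for i ∈ B}`. -/
noncomputable def cubeInd {ι : Type*} (A B : Finset ι) (x : ι → ℤˣ) : ℝ :=
  if (∀ i ∈ A, x i = 1) ∧ (∀ i ∈ B, x i = -1) then 1 else 0

section
variable {ι : Type*} [Fintype ι] [DecidableEq ι]

omit [Fintype ι] [DecidableEq ι] in
theorem cubeInd_eq (A B : Finset ι) (x : ι → ℤˣ) :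
    cubeInd A B x = (∏ i ∈ A, (if x i = 1 then (1 : ℝ) else 0)) * ∏ i ∈ B, (if x i = -1 then (1 : ℝ) else 0) := by
  unfold cubeInd
  rw [Finset.prod_ite_zero, Finset.prod_ite_zero]
  simp only [Finset.prod_const_one]
  by_cases h1 : ∀ i ∈ A, x i = 1
  · by_cases h2 : ∀ i ∈ B, x i = -1
    · rw [if_pos ⟨h1, h2⟩, if_pos h1, if_pos h2, one_mul]
    · rw [if_neg (fun h => h2 h.2), if_neg h2, mul_zero]
  · rw [if_neg (fun h => h1 h.1), if_neg h1, zero_mul]

theorem ex_cubeInd {A B : Finset ι} (hAB : Disjoint A B) (ρ : ℝ) :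
    ex ρ (cubeInd A B) = ((1 + ρ) / 2) ^ A.card * ((1 - ρ) / 2) ^ B.card := by
  unfold ex wt
  have h : ∀ x : ι → ℤˣ, (∏ i, ((1 + ρ * ((x i : ℤ) : ℝ)) / 2)) * cubeInd A B x
      = ∏ i, (((1 + ρ * ((x i : ℤ) : ℝ)) / 2) * ((if i ∈ A then (if x i = 1 then (1 : ℝ) else 0) else 1) *
        (if i ∈ B then (if x i = -1 then (1 : ℝ) else 0) else 1))) := by
    intro x
    rw [cubeInd_eq, Finset.prod_mul_distrib, Finset.prod_mul_distrib, Finset.prod_ite_mem,
      Finset.prod_ite_mem, Finset.univ_inter, Finset.univ_inter]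
  simp_rw [h]
  rw [sum_pi_prod (fun i (u : ℤˣ) => (((1 + ρ * ((u : ℤ) : ℝ)) / 2) * ((if i ∈ A then (if u = 1 then (1 : ℝ) else 0) else 1) *
        (if i ∈ B then (if u = -1 then (1 : ℝ) else 0) else 1))))]
  have h2 : ∀ i, (∑ u : ℤˣ, (((1 + ρ * ((u : ℤ) : ℝ)) / 2) * ((if i ∈ A then (if u = 1 then (1 : ℝ) else 0) else 1) *
        (if i ∈ B then (if u = -1 then (1 : ℝ) else 0) else 1))))
      = (if i ∈ A then (1 + ρ) / 2 else 1) * (if i ∈ B then (1 - ρ) / 2 else 1) := by
    intro i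
    rw [units_sum]
    have h1 : ¬ ((1 : ℤˣ) = -1) := by decide
    have h1' : ¬ ((-1 : ℤˣ) = 1) := by decide
    by_cases hA : i ∈ A
    · have hB : i ∉ B := Finset.disjoint_left.mp hAB hA
      simp [hA, hB, h1']
    · by_cases hB : i ∈ B
      · simp [hA, hB, h1]; ring
      · simp [hA, hB]; ring
  simp_rw [h2]
  rw [Finset.prod_mul_distrib, Finset.prod_ite_mem, Finset.prod_ite_mem, Finset.univ_inter,
    Finset.univ_inter, Finset.prod_const, Finset.prod_const]

theorem genP_cubeInd {A B : Finset ι} (hAB : Disjoint A B) :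
    genP (cubeInd A B) = C ((1 / 2 : ℝ) ^ (A.card + B.card)) * ((1 + X) ^ A.card * (1 - X) ^ B.card) := by
  apply Polynomial.funext
  intro ρ
  rw [← ex_eq_genP, ex_cubeInd hAB]
  simp only [eval_mul, eval_C, eval_pow, eval_add, eval_one, eval_X, eval_sub]
  rw [div_pow, div_pow, pow_add, one_div, inv_pow, inv_pow]
  field_simp

theorem genP_add (f g : (ι → ℤˣ) → ℝ) : genP (fun x => f x + g x) = genP f + genP g := by
  unfold genP
  rw [← Finset.sum_add_distrib]
  apply Finset.sum_congr rfl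
  intro S _
  rw [fhat_add, C_add, add_mul]

theorem genP_sum {α : Type*} (s : Finset α) (w : α → ℝ) (f : α → (ι → ℤˣ) → ℝ) :
    genP (fun x => ∑ a ∈ s, w a * f a x) = ∑ a ∈ s, C (w a) * genP (f a) := by
  unfold genP
  simp_rw [fhat_sum, fhat_smul, Finset.mul_sum, map_sum, Finset.sum_mul]
  rw [Finset.sum_comm]
  apply Finset.sum_congr rfl; intro a _
  apply Finset.sum_congr rfl; intro S _
  rw [C_mul]; ring

theorem lin_sum {α : Type*} (s : Finset α) (w : α → ℝ) (f : α → (ι → ℤˣ) → ℝ) :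
    lin (fun x => ∑ a ∈ s, w a * f a x) = ∑ a ∈ s, w a * lin (f a) := by
  unfold lin
  simp_rw [fhat_sum, fhat_smul, Finset.mul_sum]
  rw [Finset.sum_comm]

theorem lin_const (c : ℝ) : lin (fun _ : ι → ℤˣ => c) = 0 := by
  rw [lin_eq]
  have : ∑ x : ι → ℤˣ, c * ∑ i, ((x i : ℤ) : ℝ) = c * ∑ x : ι → ℤˣ, ∑ i, ((x i : ℤ) : ℝ) := by
    rw [Finset.mul_sum]
  rw [this, sum_lin_one]; simp

theorem lin_add (f g : (ι → ℤˣ) → ℝ) : lin (fun x => f x + g x) = lin f + lin g := by
  unfold lin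
  simp_rw [fhat_add, Finset.sum_add_distrib]

theorem lin_smul (c : ℝ) (f : (ι → ℤˣ) → ℝ) : lin (fun x => c * f x) = c * lin f := by
  unfold lin
  simp_rw [fhat_smul, Finset.mul_sum]

theorem lin_cubeInd {A B : Finset ι} (hAB : Disjoint A B) :
    lin (cubeInd A B) = (1 / 2 : ℝ) ^ (A.card + B.card) * ((A.card : ℝ) - B.card) := by
  rw [lin_eq_genP, genP_cubeInd hAB]
  simp only [derivative_mul, derivative_C, derivative_pow, derivative_add, derivative_sub,
    derivative_one, derivative_X, eval_mul, eval_add, eval_C, eval_zero, eval_pow, eval_sub,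
    eval_one, eval_X]
  norm_num
  ring

/-- second derivative at zero -/
theorem second_cubeInd {A B : Finset ι} (hAB : Disjoint A B) :
    (derivative (derivative (genP (cubeInd A B)))).eval 0
      = (1 / 2 : ℝ) ^ (A.card + B.card) * (((A.card : ℝ) - B.card) ^ 2 - (A.card + B.card)) := by
  rw [genP_cubeInd hAB]
  have hA : ((A.card : ℝ)) * ((A.card - 1 : ℕ) : ℝ) = (A.card : ℝ) * ((A.card : ℝ) - 1) := by
    rcases Nat.eq_zero_or_pos A.card with h | h
    · simp [h]
    · rw [Nat.cast_pred h]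
  have hB : ((B.card : ℝ)) * ((B.card - 1 : ℕ) : ℝ) = (B.card : ℝ) * ((B.card : ℝ) - 1) := by
    rcases Nat.eq_zero_or_pos B.card with h | h
    · simp [h]
    · rw [Nat.cast_pred h]
  simp only [derivative_mul, derivative_C, derivative_pow, derivative_add, derivative_sub,
    derivative_one, derivative_X, eval_mul, eval_add, eval_C, eval_zero, eval_pow,
    eval_sub, eval_one, eval_X, derivative_zero]
  norm_num
  linear_combination hA + hB

theorem cosh_bound {θ : ℝ} {a b d : ℕ} (hab : a + b ≤ d) (hθ : θ ^ 2 * d = 1) :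
    Real.exp (1 / 2) * (θ * ((a : ℝ) - b)) ≤ (1 + Real.tanh θ) ^ a * (1 - Real.tanh θ) ^ b := by
  have hc : 0 < Real.cosh θ := Real.cosh_pos θ
  have h1 : 1 + Real.tanh θ = Real.exp θ / Real.cosh θ := by
    rw [Real.tanh_eq_sinh_div_cosh, eq_div_iff hc.ne']
    field_simp
    rw [Real.cosh_add_sinh]
  have h2 : 1 - Real.tanh θ = Real.exp (-θ) / Real.cosh θ := by
    rw [Real.tanh_eq_sinh_div_cosh, eq_div_iff hc.ne']
    field_simp
    rw [Real.cosh_sub_sinh]
  rw [h1, h2, div_pow, div_pow, div_mul_div_comm, ← pow_add, ← Real.exp_nat_mul, ← Real.exp_nat_mul,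
    ← Real.exp_add]
  have h3 : Real.cosh θ ^ (a + b) ≤ Real.exp (1 / 2) := by
    calc Real.cosh θ ^ (a + b) ≤ Real.cosh θ ^ d := pow_le_pow_right₀ (Real.one_le_cosh θ) hab
      _ ≤ (Real.exp (θ ^ 2 / 2)) ^ d := pow_le_pow_left₀ hc.le (Real.cosh_le_exp_half_sq θ) d
      _ = Real.exp (1 / 2) := by
        rw [← Real.exp_nat_mul]
        congr 1
        have : (d : ℝ) * (θ ^ 2 / 2) = (θ ^ 2 * d) / 2 := by ring
        rw [this, hθ]
  have h4 : (a : ℝ) * θ + (b : ℝ) * -θ = θ * ((a : ℝ) - b) := by ring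
  rw [h4]
  have h5 : Real.exp (1 / 2) * (θ * ((a : ℝ) - b)) ≤ Real.exp (θ * ((a : ℝ) - b)) / Real.exp (1 / 2) := by
    rw [le_div_iff₀ (Real.exp_pos _)]
    have h6 : Real.exp (1 / 2) * Real.exp (1 / 2) = Real.exp 1 := by
      rw [← Real.exp_add]; norm_num
    calc Real.exp (1 / 2) * (θ * ((a : ℝ) - b)) * Real.exp (1 / 2)
        = Real.exp 1 * (θ * ((a : ℝ) - b)) := by rw [← h6]; ring
      _ ≤ Real.exp 1 * Real.exp (θ * ((a : ℝ) - b) - 1) := by
        apply mul_le_mul_of_nonneg_left _ (Real.exp_pos 1).le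
        have := Real.add_one_le_exp (θ * ((a : ℝ) - b) - 1)
        linarith
      _ = _ := by rw [← Real.exp_add]; congr 1; ring
  refine h5.trans ?_
  exact div_le_div_of_nonneg_left (Real.exp_pos _).le (by positivity) h3

/-- One-sided bound: if `(1 + f) / 2` is a nonnegative combination of subcubes of codimension at
most `d`, then `∑_i f̂({i}) ≤ 2 e^{-1/2} √d`. -/
theorem one_sided {α : Type*} [Fintype α] {d : ℕ} {f : (ι → ℤˣ) → ℝ} (hf : ∀ x, f x ≤ 1)
    (w : α → ℝ) (hw : ∀ j, 0 ≤ w j) (A B : α → Finset ι) (hAB : ∀ j, Disjoint (A j) (B j))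
    (hd : ∀ j, (A j).card + (B j).card ≤ d)
    (h : ∀ x, (1 + f x) / 2 = ∑ j, w j * cubeInd (A j) (B j) x) :
    lin f ≤ 2 * Real.exp (-(1 / 2)) * √(d : ℝ) := by
  have hlin : lin f = 2 * ∑ j, w j * ((1 / 2 : ℝ) ^ ((A j).card + (B j).card) * (((A j).card : ℝ) - (B j).card)) := by
    have h1 : f = fun x => 2 * (∑ j, w j * cubeInd (A j) (B j) x) + (-1) := by
      funext x
      rw [← h x]; ring
    rw [h1, lin_add, lin_const, lin_smul, lin_sum]
    simp_rw [lin_cubeInd (hAB _)]
    ring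
  rcases Nat.eq_zero_or_pos d with hd0 | hd0
  · subst hd0
    rw [hlin]
    have : ∀ j, (A j).card = 0 ∧ (B j).card = 0 := fun j => by have := hd j; omega
    simp [this]
  · set θ : ℝ := 1 / √(d : ℝ) with hθ
    have hsd : 0 < √(d : ℝ) := Real.sqrt_pos.mpr (by exact_mod_cast hd0)
    have hθ2 : θ ^ 2 * d = 1 := by
      rw [hθ, div_pow, Real.sq_sqrt (Nat.cast_nonneg d), one_pow]
      field_simp
    have hθs : θ * √(d : ℝ) = 1 := by rw [hθ]; field_simp
    have ht1 : -1 < Real.tanh θ := Real.neg_one_lt_tanh θ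
    have ht2 : Real.tanh θ < 1 := Real.tanh_lt_one θ
    have hmass : ∑ j, w j * ((1 / 2 : ℝ) ^ ((A j).card + (B j).card) *
        ((1 + Real.tanh θ) ^ (A j).card * (1 - Real.tanh θ) ^ (B j).card)) ≤ 1 := by
      have h1 : ex (Real.tanh θ) (fun x => ∑ j, w j * cubeInd (A j) (B j) x) ≤ 1 := by
        rw [← ex_one (ι := ι) (Real.tanh θ)]
        apply ex_mono ht1.le ht2.le
        intro x
        rw [← h x]
        linarith [hf x]
      rw [ex_sum] at h1
      simp_rw [ex_smul, ex_cubeInd (hAB _)] at h1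
      have h2 : ∀ j, (1 / 2 : ℝ) ^ ((A j).card + (B j).card) *
          ((1 + Real.tanh θ) ^ (A j).card * (1 - Real.tanh θ) ^ (B j).card)
          = ((1 + Real.tanh θ) / 2) ^ (A j).card * ((1 - Real.tanh θ) / 2) ^ (B j).card := by
        intro j
        rw [pow_add, mul_mul_mul_comm, ← mul_pow, ← mul_pow]
        congr 2 <;> ring
      simp_rw [h2]
      exact h1
    rw [hlin]
    have hkey : ∑ j, w j * ((1 / 2 : ℝ) ^ ((A j).card + (B j).card) * (((A j).card : ℝ) - (B j).card))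
        ≤ (Real.exp (-(1 / 2)) * √(d : ℝ)) * ∑ j, w j * ((1 / 2 : ℝ) ^ ((A j).card + (B j).card) *
        ((1 + Real.tanh θ) ^ (A j).card * (1 - Real.tanh θ) ^ (B j).card)) := by
      rw [Finset.mul_sum]
      apply Finset.sum_le_sum
      intro j _
      have hb := cosh_bound (hd j) hθ2
      have he : Real.exp (-(1 / 2)) * Real.exp (1 / 2) = 1 := by
        rw [← Real.exp_add]; norm_num
      have h2 : ((A j).card : ℝ) - (B j).card ≤ (Real.exp (-(1 / 2)) * √(d : ℝ)) *
          ((1 + Real.tanh θ) ^ (A j).card * (1 - Real.tanh θ) ^ (B j).card) := by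
        calc ((A j).card : ℝ) - (B j).card
            = (Real.exp (-(1 / 2)) * √(d : ℝ)) * (Real.exp (1 / 2) * (θ * (((A j).card : ℝ) - (B j).card))) := by
              linear_combination (-(((A j).card : ℝ) - (B j).card) * (θ * √(d : ℝ))) * he
                - (((A j).card : ℝ) - (B j).card) * hθs
          _ ≤ _ := mul_le_mul_of_nonneg_left hb (by positivity)
      calc w j * ((1 / 2 : ℝ) ^ ((A j).card + (B j).card) * (((A j).card : ℝ) - (B j).card))
          ≤ w j * ((1 / 2 : ℝ) ^ ((A j).card + (B j).card) * ((Real.exp (-(1 / 2)) * √(d : ℝ)) *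
          ((1 + Real.tanh θ) ^ (A j).card * (1 - Real.tanh θ) ^ (B j).card))) := by
            apply mul_le_mul_of_nonneg_left _ (hw j)
            exact mul_le_mul_of_nonneg_left h2 (by positivity)
        _ = _ := by ring
    have hc : 0 ≤ Real.exp (-(1 / 2)) * √(d : ℝ) := by positivity
    have := mul_le_mul_of_nonneg_left hmass hc
    linarith

/-- Two-sided bound for (fractional) partitions into subcubes. -/
theorem two_sided {α : Type*} [Fintype α] {d : ℕ} {f : (ι → ℤˣ) → ℝ}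
    (w s : α → ℝ) (hw : ∀ j, 0 ≤ w j) (hs : ∀ j, |s j| ≤ 1) (A B : α → Finset ι)
    (hAB : ∀ j, Disjoint (A j) (B j))
    (hd : ∀ j, (A j).card + (B j).card ≤ d)
    (h1 : ∀ x, ∑ j, w j * cubeInd (A j) (B j) x = 1)
    (h : ∀ x, f x = ∑ j, (w j * s j) * cubeInd (A j) (B j) x) :
    lin f ≤ √(d : ℝ) := by
  set p : α → ℝ := fun j => w j * (1 / 2 : ℝ) ^ ((A j).card + (B j).card) with hp
  set δ : α → ℝ := fun j => ((A j).card : ℝ) - (B j).card with hδ
  have hp0 : ∀ j, 0 ≤ p j := fun j => mul_nonneg (hw j) (by positivity)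
  have hgen : (∑ j, C (w j) * genP (cubeInd (A j) (B j))) = (1 : ℝ[X]) := by
    rw [← genP_sum]
    apply Polynomial.funext
    intro ρ
    rw [← ex_eq_genP]
    simp_rw [h1]
    rw [ex_one]; simp
  have hsum : ∑ j, p j = 1 := by
    have := congrArg (fun q : ℝ[X] => q.eval 0) hgen
    simp only [eval_finsetSum, eval_mul, eval_C, eval_one] at this
    rw [← this]
    apply Finset.sum_congr rfl
    intro j _
    rw [← ex_eq_genP, ex_cubeInd (hAB j), hp]
    simp only [add_zero, sub_zero]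
    rw [pow_add]
  have hsecond : ∑ j, p j * (δ j ^ 2 - ((A j).card + (B j).card)) = 0 := by
    have := congrArg (fun q : ℝ[X] => (derivative (derivative q)).eval 0) hgen
    simp only [derivative_sum, derivative_C_mul, eval_finsetSum, eval_mul, eval_C, derivative_one,
      derivative_zero, eval_zero] at this
    rw [← this]
    apply Finset.sum_congr rfl
    intro j _
    rw [second_cubeInd (hAB j), hp, hδ]
    ring
  have hvar : ∑ j, p j * δ j ^ 2 ≤ d := by
    have h2 : ∑ j, p j * δ j ^ 2 = ∑ j, p j * ((A j).card + (B j).card) := by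
      have : ∑ j, p j * (δ j ^ 2 - ((A j).card + (B j).card))
          = ∑ j, p j * δ j ^ 2 - ∑ j, p j * ((A j).card + (B j).card) := by
        rw [← Finset.sum_sub_distrib]
        apply Finset.sum_congr rfl; intro j _; ring
      linarith
    rw [h2]
    calc ∑ j, p j * (((A j).card : ℝ) + (B j).card) ≤ ∑ j, p j * d := by
          apply Finset.sum_le_sum
          intro j _
          apply mul_le_mul_of_nonneg_left _ (hp0 j)
          exact_mod_cast hd j
      _ = d := by rw [← Finset.sum_mul, hsum, one_mul]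
  have hlin : lin f = ∑ j, p j * (s j * δ j) := by
    have h2 : f = fun x => ∑ j, (w j * s j) * cubeInd (A j) (B j) x := by
      funext x; exact h x
    rw [h2, lin_sum]
    apply Finset.sum_congr rfl
    intro j _
    rw [lin_cubeInd (hAB j), hp, hδ]
    ring
  rw [hlin]
  apply Real.le_sqrt_of_sq_le
  have hcs : (∑ j, p j * (s j * δ j)) ^ 2 ≤ (∑ j, p j) * ∑ j, p j * (s j * δ j) ^ 2 := by
    have := Finset.sum_mul_sq_le_sq_mul_sq Finset.univ (fun j => √(p j)) (fun j => √(p j) * (s j * δ j))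
    have e1 : ∀ j, √(p j) * (√(p j) * (s j * δ j)) = p j * (s j * δ j) := by
      intro j; rw [← mul_assoc, Real.mul_self_sqrt (hp0 j)]
    have e2 : ∀ j, √(p j) ^ 2 = p j := fun j => Real.sq_sqrt (hp0 j)
    simp only [mul_pow, e1, e2] at this
    simpa only [mul_pow] using this
  calc (∑ j, p j * (s j * δ j)) ^ 2 ≤ (∑ j, p j) * ∑ j, p j * (s j * δ j) ^ 2 := hcs
    _ = ∑ j, p j * (s j * δ j) ^ 2 := by rw [hsum, one_mul]
    _ ≤ ∑ j, p j * δ j ^ 2 := by
      apply Finset.sum_le_sum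
      intro j _
      apply mul_le_mul_of_nonneg_left _ (hp0 j)
      rw [mul_pow]
      have : s j ^ 2 ≤ 1 := by
        rw [← sq_abs]
        have := hs j
        have h0 := abs_nonneg (s j)
        nlinarith
      nlinarith [sq_nonneg (δ j)]
    _ ≤ d := hvar

end

end Vale.Agent.P047
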