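import Vale.Agent.P047.Comp
import Vale.Agent.P047.CltAbs

/-!
# P047: lower bound for `M(d)` from products of a ten-variable (plus dummies) partition
-/

namespace Vale.Agent.P047

open Finset

section
variable {ι : Type} [Fintype ι] [DecidableEq ι] {α : Type} [Fintype α] [DecidableEq α]

/-- sign with value `1` at `0` -/
noncomputable def sg (t : ℝ) : ℝ := if 0 ≤ t then 1 else -1

theorem sg_mul (t : ℝ) : sg t * t = |t| := by
  unfold sg
  split_ifs with h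
  · rw [one_mul, abs_of_nonneg h]
  · push Not at h
    rw [abs_of_neg h]; ring

theorem prod_lin {k : ℕ} (F : Fin k → (ι → ℤˣ) → ℝ) :
    ∑ x : Fin k × ι → ℤˣ, (∏ j, F j (fun i => x (j, i))) * ∑ p, ((x p : ℤ) : ℝ)
      = ∑ m : Fin k, ∏ j, ∑ y : ι → ℤˣ, F j y * (if j = m then ∑ i, ((y i : ℤ) : ℝ) else 1) := by
  have h : ∀ x : Fin k × ι → ℤˣ, (∏ j, F j (fun i => x (j, i))) * ∑ p, ((x p : ℤ) : ℝ)
      = ∑ m : Fin k, ∏ j, (F j (fun i => x (j, i)) * (if j = m then ∑ i, ((x (j, i) : ℤ) : ℝ) else 1)) := by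
    intro x
    rw [Fintype.sum_prod_type, Finset.mul_sum]
    apply Finset.sum_congr rfl
    intro m _
    rw [Finset.prod_mul_distrib]
    congr 1
    rw [Finset.prod_ite_eq' Finset.univ m]
    simp
  simp_rw [h]
  rw [Finset.sum_comm]
  apply Finset.sum_congr rfl
  intro m _
  rw [sum_blocks (fun j y => F j y * (if j = m then ∑ i, ((y i : ℤ) : ℝ) else 1))]

omit [DecidableEq α] in
theorem product_bound {D : ℕ} (V : α → (ι → ℤˣ) → ℝ) (w P : α → ℝ)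
    (hV : ∀ x, ∃ a, V a x = 1 ∧ ∀ b, b ≠ a → V b x = 0)
    (hlow : ∀ a, V a ∈ Low ι D)
    (hP : ∀ a, ∑ x, V a x = 2 ^ Fintype.card ι * P a)
    (hw : ∀ a, ∑ x, V a x * ∑ i, ((x i : ℤ) : ℝ) = w a * (2 ^ Fintype.card ι * P a))
    [Nonempty ι] {k : ℕ} (hk : 1 ≤ k) :
    avg P k (fun a => |∑ j, w (a j)|) ≤ M (D * k) := by
  classical
  set f : (Fin k × ι → ℤˣ) → ℝ := fun x => ∑ a : Fin k → α, sg (∑ j, w (a j)) *
    ∏ j, V (a j) (fun i => x (j, i)) with hf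
  have hlowf : f ∈ Low (Fin k × ι) (D * k) := by
    apply low_sum
    intro a _
    apply low_smul
    have := low_prod (ι := Fin k × ι) (d := D) (Finset.univ : Finset (Fin k))
      (fun j x => V (a j) (fun i => x (j, i))) (fun j _ =>
        low_pull (⟨fun i => (j, i), fun a b h => (Prod.mk.inj h).2⟩ : ι ↪ Fin k × ι) (hlow (a j)))
    rw [Finset.card_univ, Fintype.card_fin, mul_comm] at this
    exact this
  have hbool : IsBool f := by
    intro x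
    choose g hg1 hg2 using hV
    have : f x = sg (∑ j, w (g (fun i => x (j, i)))) := by
      rw [hf]
      simp only
      rw [Finset.sum_eq_single (fun j => g (fun i => x (j, i)))]
      · rw [Finset.prod_eq_one (fun j _ => hg1 _), mul_one]
      · intro a _ ha
        obtain ⟨j, hj⟩ := Function.ne_iff.mp ha
        rw [Finset.prod_eq_zero (Finset.mem_univ j) (hg2 _ _ hj), mul_zero]
      · intro h; exact absurd (Finset.mem_univ _) h
    rw [this]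
    unfold sg
    split_ifs
    · left; rfl
    · right; rfl
  have : Nonempty (Fin k × ι) := ⟨(⟨0, hk⟩, Classical.arbitrary ι)⟩
  have hM := le_M hlowf hbool
  refine le_trans (le_of_eq ?_) hM
  rw [lin_eq, Fintype.card_prod, Fintype.card_fin]
  have h1 : ∑ x : Fin k × ι → ℤˣ, f x * ∑ i, ((x i : ℤ) : ℝ)
      = ∑ a : Fin k → α, sg (∑ j, w (a j)) *
        ∑ x : Fin k × ι → ℤˣ, (∏ j, V (a j) (fun i => x (j, i))) * ∑ p, ((x p : ℤ) : ℝ) := by
    rw [hf]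
    simp only
    simp_rw [Finset.sum_mul]
    rw [Finset.sum_comm]
    apply Finset.sum_congr rfl
    intro a _
    rw [Finset.mul_sum]
    apply Finset.sum_congr rfl
    intro x _
    ring
  rw [h1]
  simp_rw [prod_lin]
  have h2 : ∀ a : Fin k → α, ∀ m : Fin k,
      ∏ j, ∑ y : ι → ℤˣ, V (a j) y * (if j = m then ∑ i, ((y i : ℤ) : ℝ) else 1)
        = w (a m) * (2 ^ (k * Fintype.card ι) * ∏ j, P (a j)) := by
    intro a m
    have h3 : ∀ j, ∑ y : ι → ℤˣ, V (a j) y * (if j = m then ∑ i, ((y i : ℤ) : ℝ) else 1)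
        = (if j = m then w (a j) else 1) * (2 ^ Fintype.card ι * P (a j)) := by
      intro j
      split_ifs
      · exact hw _
      · simp_rw [mul_one]
        rw [hP, one_mul]
    simp_rw [h3]
    rw [Finset.prod_mul_distrib, Finset.prod_mul_distrib, Finset.prod_const, Finset.card_univ,
      Fintype.card_fin, Finset.prod_ite_eq' Finset.univ m, ← pow_mul]
    simp [mul_comm k]
  simp_rw [h2]
  unfold avg
  rw [Finset.sum_div]
  apply Finset.sum_congr rfl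
  intro a _
  rw [← Finset.sum_mul]
  have h4 := sg_mul (∑ j, w (a j))
  simp only
  rw [← h4]
  field_simp

end

/-! ### The gadget -/

/-- sum over three signs -/
theorem sum_three (g : (Fin 3 → ℤˣ) → ℝ) :
    ∑ y : Fin 3 → ℤˣ, g y = ∑ a : ℤˣ, ∑ b : ℤˣ, ∑ c : ℤˣ, g ![a, b, c] := by
  have h : ∑ y : Fin 3 → ℤˣ, g y = ∑ p : ℤˣ × ℤˣ × ℤˣ, g ![p.1, p.2.1, p.2.2] := by
    symm
    refine Fintype.sum_bijective (fun p : ℤˣ × ℤˣ × ℤˣ => ![p.1, p.2.1, p.2.2]) ?_ _ _ (fun _ => rfl)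
    decide
  rw [h, Fintype.sum_prod_type]
  apply Finset.sum_congr rfl
  intro a _
  rw [Fintype.sum_prod_type]

/-- `1` if the three signs are equal, else `0` -/
noncomputable def uu (y : Fin 3 → ℤˣ) : ℝ :=
  (1 + ((y 0 : ℤ) : ℝ) * ((y 1 : ℤ) : ℝ) + ((y 1 : ℤ) : ℝ) * ((y 2 : ℤ) : ℝ) + ((y 2 : ℤ) : ℝ) * ((y 0 : ℤ) : ℝ)) / 4

/-- the common sign if the three signs are equal, else `0` -/
noncomputable def tt (y : Fin 3 → ℤˣ) : ℝ :=
  (((y 0 : ℤ) : ℝ) + ((y 1 : ℤ) : ℝ) + ((y 2 : ℤ) : ℝ) + ((y 0 : ℤ) : ℝ) * ((y 1 : ℤ) : ℝ) * ((y 2 : ℤ) : ℝ)) / 4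

theorem ut_cases (y : Fin 3 → ℤˣ) : (uu y = 1 ∧ tt y = 1) ∨ (uu y = 1 ∧ tt y = -1) ∨ (uu y = 0 ∧ tt y = 0) := by
  unfold uu tt
  rcases Int.units_eq_one_or (y 0) with h0 | h0 <;> rcases Int.units_eq_one_or (y 1) with h1 | h1 <;>
    rcases Int.units_eq_one_or (y 2) with h2 | h2 <;> rw [h0, h1, h2] <;> norm_num

/-- block functions, indexed by a small code -/
noncomputable def bf : Fin 7 → (Fin 3 → ℤˣ) → ℝ
  | 0 => fun _ => 1
  | 1 => fun y => (uu y + tt y) / 2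
  | 2 => fun y => (uu y - tt y) / 2
  | 3 => fun y => 1 - uu y
  | 4 => fun y => (1 + ((y 0 : ℤ) : ℝ)) / 2
  | 5 => fun y => (1 - ((y 0 : ℤ) : ℝ)) / 2
  | 6 => fun y => uu y

/-- `∑ bf c` -/
noncomputable def sv : Fin 7 → ℝ
  | 0 => 8
  | 1 => 1
  | 2 => 1
  | 3 => 6
  | 4 => 4
  | 5 => 4
  | 6 => 2

/-- `∑ bf c * (y0 + y1 + y2)` -/
noncomputable def lv : Fin 7 → ℝ
  | 0 => 0
  | 1 => 3
  | 2 => -3
  | 3 => 0
  | 4 => 4
  | 5 => -4
  | 6 => 0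

theorem bf_sum : ∀ c : Fin 7, ∑ y, bf c y = sv c := by
  intro c
  rw [sum_three]
  simp_rw [units_sum]
  fin_cases c <;> simp [bf, uu, tt, sv] <;> norm_num

theorem bf_lin : ∀ c : Fin 7, ∑ y, bf c y * ∑ i, ((y i : ℤ) : ℝ) = lv c := by
  intro c
  rw [sum_three]
  simp_rw [units_sum, Fin.sum_univ_three]
  fin_cases c <;> simp [bf, uu, tt, lv] <;> norm_num

/-- product of four block functions -/
noncomputable def trm (c0 c1 c2 c3 : Fin 7) (x : Fin 4 × Fin 3 → ℤˣ) : ℝ :=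
  bf c0 (fun i => x (0, i)) * bf c1 (fun i => x (1, i)) * bf c2 (fun i => x (2, i)) * bf c3 (fun i => x (3, i))

/-- four codes as a function -/
def fourc (c0 c1 c2 c3 : Fin 7) : Fin 4 → Fin 7
  | 0 => c0
  | 1 => c1
  | 2 => c2
  | 3 => c3

theorem trm_eq (c0 c1 c2 c3 : Fin 7) (x : Fin 4 × Fin 3 → ℤˣ) :
    trm c0 c1 c2 c3 x = ∏ j, bf (fourc c0 c1 c2 c3 j) (fun i => x (j, i)) := by
  rw [Fin.prod_univ_four]
  rfl

theorem trm_sum (c0 c1 c2 c3 : Fin 7) :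
    ∑ x, trm c0 c1 c2 c3 x = sv c0 * sv c1 * sv c2 * sv c3 := by
  simp_rw [trm_eq]
  rw [sum_blocks (fun j y => bf (fourc c0 c1 c2 c3 j) y), Fin.prod_univ_four]
  simp_rw [bf_sum]
  rfl

theorem trm_lin (c0 c1 c2 c3 : Fin 7) :
    ∑ x, trm c0 c1 c2 c3 x * ∑ p, ((x p : ℤ) : ℝ) = lv c0 * sv c1 * sv c2 * sv c3
      + sv c0 * lv c1 * sv c2 * sv c3 + sv c0 * sv c1 * lv c2 * sv c3 + sv c0 * sv c1 * sv c2 * lv c3 := by
  simp_rw [trm_eq]
  rw [prod_lin (fun j y => bf (fourc c0 c1 c2 c3 j) y)]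
  have h : ∀ m j : Fin 4, (∑ y : Fin 3 → ℤˣ, bf (fourc c0 c1 c2 c3 j) y * (if j = m then ∑ i, ((y i : ℤ) : ℝ) else 1))
      = if j = m then lv (fourc c0 c1 c2 c3 j) else sv (fourc c0 c1 c2 c3 j) := by
    intro m j
    split_ifs
    · exact bf_lin _
    · simp_rw [mul_one]; exact bf_sum _
  simp_rw [h]
  rw [Fin.sum_univ_four]
  simp_rw [Fin.prod_univ_four]
  have n01 : ¬ ((0 : Fin 4) = 1) := by decide
  have n02 : ¬ ((0 : Fin 4) = 2) := by decide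
  have n03 : ¬ ((0 : Fin 4) = 3) := by decide
  have n10 : ¬ ((1 : Fin 4) = 0) := by decide
  have n12 : ¬ ((1 : Fin 4) = 2) := by decide
  have n13 : ¬ ((1 : Fin 4) = 3) := by decide
  have n20 : ¬ ((2 : Fin 4) = 0) := by decide
  have n21 : ¬ ((2 : Fin 4) = 1) := by decide
  have n23 : ¬ ((2 : Fin 4) = 3) := by decide
  have n30 : ¬ ((3 : Fin 4) = 0) := by decide
  have n31 : ¬ ((3 : Fin 4) = 1) := by decide
  have n32 : ¬ ((3 : Fin 4) = 2) := by decide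
  simp only [n01, n02, n03, n10, n12, n13, n20, n21, n23, n30, n31, n32, if_true, if_false]
  rfl

/-- the piece with block sum `3` -/
noncomputable def V0 (x : Fin 4 × Fin 3 → ℤˣ) : ℝ := trm 1 3 0 0 x + trm 0 1 3 0 x + trm 3 0 1 0 x
/-- the piece with block sum `-3` -/
noncomputable def V1 (x : Fin 4 × Fin 3 → ℤˣ) : ℝ := trm 2 3 0 0 x + trm 0 2 3 0 x + trm 3 0 2 0 x
/-- the piece with block sum `1` -/
noncomputable def V2 (x : Fin 4 × Fin 3 → ℤˣ) : ℝ := trm 6 6 6 4 x + trm 3 3 3 4 x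
/-- the piece with block sum `-1` -/
noncomputable def V3 (x : Fin 4 × Fin 3 → ℤˣ) : ℝ := trm 6 6 6 5 x + trm 3 3 3 5 x

/-- the four pieces -/
noncomputable def VV : Fin 4 → (Fin 4 × Fin 3 → ℤˣ) → ℝ
  | 0 => V0
  | 1 => V1
  | 2 => V2
  | 3 => V3

/-- values of the block sum -/
noncomputable def wF : Fin 4 → ℝ
  | 0 => 3
  | 1 => -3
  | 2 => 1
  | 3 => -1

/-- probabilities -/
noncomputable def pF : Fin 4 → ℝ
  | 0 => 9 / 32
  | 1 => 9 / 32
  | 2 => 7 / 32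
  | 3 => 7 / 32

theorem card12 : Fintype.card (Fin 4 × Fin 3) = 12 := by simp

theorem V0_sum : ∑ x, V0 x = 1152 := by
  unfold V0
  simp only [Finset.sum_add_distrib, trm_sum, sv]; norm_num
theorem V1_sum : ∑ x, V1 x = 1152 := by
  unfold V1
  simp only [Finset.sum_add_distrib, trm_sum, sv]; norm_num
theorem V2_sum : ∑ x, V2 x = 896 := by
  unfold V2
  simp only [Finset.sum_add_distrib, trm_sum, sv]; norm_num
theorem V3_sum : ∑ x, V3 x = 896 := by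
  unfold V3
  simp only [Finset.sum_add_distrib, trm_sum, sv]; norm_num
theorem V0_lin : ∑ x, V0 x * ∑ p, ((x p : ℤ) : ℝ) = 3456 := by
  unfold V0
  simp only [add_mul, Finset.sum_add_distrib, trm_lin, sv, lv]; norm_num
theorem V1_lin : ∑ x, V1 x * ∑ p, ((x p : ℤ) : ℝ) = -3456 := by
  unfold V1
  simp only [add_mul, Finset.sum_add_distrib, trm_lin, sv, lv]; norm_num
theorem V2_lin : ∑ x, V2 x * ∑ p, ((x p : ℤ) : ℝ) = 896 := by
  unfold V2
  simp only [add_mul, Finset.sum_add_distrib, trm_lin, sv, lv]; norm_num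
theorem V3_lin : ∑ x, V3 x * ∑ p, ((x p : ℤ) : ℝ) = -896 := by
  unfold V3
  simp only [add_mul, Finset.sum_add_distrib, trm_lin, sv, lv]; norm_num

theorem VV_sum (a : Fin 4) : ∑ x, VV a x = 2 ^ Fintype.card (Fin 4 × Fin 3) * pF a := by
  rw [card12]
  match a with
  | 0 => exact V0_sum.trans (by simp only [pF]; norm_num)
  | 1 => exact V1_sum.trans (by simp only [pF]; norm_num)
  | 2 => exact V2_sum.trans (by simp only [pF]; norm_num)
  | 3 => exact V3_sum.trans (by simp only [pF]; norm_num)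

theorem VV_lin (a : Fin 4) : ∑ x, VV a x * ∑ p, ((x p : ℤ) : ℝ)
    = wF a * (2 ^ Fintype.card (Fin 4 × Fin 3) * pF a) := by
  rw [card12]
  match a with
  | 0 => exact V0_lin.trans (by simp only [pF, wF]; norm_num)
  | 1 => exact V1_lin.trans (by simp only [pF, wF]; norm_num)
  | 2 => exact V2_lin.trans (by simp only [pF, wF]; norm_num)
  | 3 => exact V3_lin.trans (by simp only [pF, wF]; norm_num)

/-- block version of `uu` -/
noncomputable def ub (j : Fin 4) (x : Fin 4 × Fin 3 → ℤˣ) : ℝ := uu (fun i => x (j, i))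
/-- block version of `tt` -/
noncomputable def tb (j : Fin 4) (x : Fin 4 × Fin 3 → ℤˣ) : ℝ := tt (fun i => x (j, i))
/-- the extra sign -/
noncomputable def zb (x : Fin 4 × Fin 3 → ℤˣ) : ℝ := ((x (3, 0) : ℤ) : ℝ)

theorem V0_eq (x : Fin 4 × Fin 3 → ℤˣ) : V0 x = (1 / 2) * ((ub 0 x + tb 0 x) * (1 - ub 1 x)
    + (ub 1 x + tb 1 x) * (1 - ub 2 x) + (ub 2 x + tb 2 x) * (1 - ub 0 x)) := by
  simp only [V0, trm, bf, ub, tb]; ring
theorem V1_eq (x : Fin 4 × Fin 3 → ℤˣ) : V1 x = (1 / 2) * ((ub 0 x - tb 0 x) * (1 - ub 1 x)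
    + (ub 1 x - tb 1 x) * (1 - ub 2 x) + (ub 2 x - tb 2 x) * (1 - ub 0 x)) := by
  simp only [V1, trm, bf, ub, tb]; ring
theorem V2_eq (x : Fin 4 × Fin 3 → ℤˣ) : V2 x = (1 - ub 0 x - ub 1 x - ub 2 x + ub 0 x * ub 1 x
    + ub 1 x * ub 2 x + ub 2 x * ub 0 x) * (1 / 2 + 1 / 2 * zb x) := by
  simp only [V2, trm, bf, ub, zb]; ring
theorem V3_eq (x : Fin 4 × Fin 3 → ℤˣ) : V3 x = (1 - ub 0 x - ub 1 x - ub 2 x + ub 0 x * ub 1 x
    + ub 1 x * ub 2 x + ub 2 x * ub 0 x) * (1 / 2 + (-1 / 2) * zb x) := by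
  simp only [V3, trm, bf, ub, zb]; ring

theorem ub_low (j : Fin 4) : ub j ∈ Low (Fin 4 × Fin 3) 2 := by
  have h : ∀ a b : Fin 4 × Fin 3, (fun x : Fin 4 × Fin 3 → ℤˣ => ((x a : ℤ) : ℝ) * ((x b : ℤ) : ℝ)) ∈ Low (Fin 4 × Fin 3) 2 :=
    fun a b => low_mono (show 1 + 1 ≤ 2 by norm_num) (low_mul (low_coord a) (low_coord b))
  have h1 := low_smul (1 / 4) (low_add (low_add (low_add (low_const 1 2) (h (j, 0) (j, 1))) (h (j, 1) (j, 2))) (h (j, 2) (j, 0)))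
  have h2 : ub j = fun x => 1 / 4 * (1 + ((x (j, 0) : ℤ) : ℝ) * ((x (j, 1) : ℤ) : ℝ) + ((x (j, 1) : ℤ) : ℝ) * ((x (j, 2) : ℤ) : ℝ)
      + ((x (j, 2) : ℤ) : ℝ) * ((x (j, 0) : ℤ) : ℝ)) := by
    funext x
    simp only [ub, uu]
    ring
  rw [h2]
  exact h1

theorem tb_low (j : Fin 4) : tb j ∈ Low (Fin 4 × Fin 3) 3 := by
  have h : ∀ a : Fin 4 × Fin 3, (fun x : Fin 4 × Fin 3 → ℤˣ => ((x a : ℤ) : ℝ)) ∈ Low (Fin 4 × Fin 3) 3 :=
    fun a => low_mono (by norm_num) (low_coord a)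
  have h3 : (fun x : Fin 4 × Fin 3 → ℤˣ => ((x (j, 0) : ℤ) : ℝ) * ((x (j, 1) : ℤ) : ℝ) * ((x (j, 2) : ℤ) : ℝ)) ∈ Low (Fin 4 × Fin 3) 3 :=
    low_mono (show 1 + 1 + 1 ≤ 3 by norm_num) (low_mul (low_mul (low_coord (j, 0)) (low_coord (j, 1))) (low_coord (j, 2)))
  have h1 := low_smul (1 / 4) (low_add (low_add (low_add (h (j, 0)) (h (j, 1))) (h (j, 2))) h3)
  have h2 : tb j = fun x => 1 / 4 * (((x (j, 0) : ℤ) : ℝ) + ((x (j, 1) : ℤ) : ℝ) + ((x (j, 2) : ℤ) : ℝ)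
      + ((x (j, 0) : ℤ) : ℝ) * ((x (j, 1) : ℤ) : ℝ) * ((x (j, 2) : ℤ) : ℝ)) := by
    funext x
    simp only [tb, tt]
    ring
  rw [h2]
  exact h1

theorem zb_low : zb ∈ Low (Fin 4 × Fin 3) 1 := low_coord (3, 0)

theorem ub_low3 (j : Fin 4) : ub j ∈ Low (Fin 4 × Fin 3) 3 := low_mono (by norm_num) (ub_low j)
theorem ub_low4 (j : Fin 4) : ub j ∈ Low (Fin 4 × Fin 3) 4 := low_mono (by norm_num) (ub_low j)
theorem uc_low (j : Fin 4) : (fun x => 1 - ub j x) ∈ Low (Fin 4 × Fin 3) 2 := low_sub (low_const 1 2) (ub_low j)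
theorem uu_low (j l : Fin 4) : (fun x => ub j x * ub l x) ∈ Low (Fin 4 × Fin 3) 4 :=
  low_mono (show 2 + 2 ≤ 4 by norm_num) (low_mul (ub_low j) (ub_low l))

theorem V0_low : V0 ∈ Low (Fin 4 × Fin 3) 5 := by
  have h : ∀ j l, (fun x => (ub j x + tb j x) * (1 - ub l x)) ∈ Low (Fin 4 × Fin 3) 5 :=
    fun j l => low_mono (show 3 + 2 ≤ 5 by norm_num) (low_mul (low_add (ub_low3 j) (tb_low j)) (uc_low l))
  have h1 := low_smul (1 / 2) (low_add (low_add (h 0 1) (h 1 2)) (h 2 0))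
  have h2 : V0 = _ := funext V0_eq
  rw [h2]
  exact h1

theorem V1_low : V1 ∈ Low (Fin 4 × Fin 3) 5 := by
  have h : ∀ j l, (fun x => (ub j x - tb j x) * (1 - ub l x)) ∈ Low (Fin 4 × Fin 3) 5 :=
    fun j l => low_mono (show 3 + 2 ≤ 5 by norm_num) (low_mul (low_sub (ub_low3 j) (tb_low j)) (uc_low l))
  have h1 := low_smul (1 / 2) (low_add (low_add (h 0 1) (h 1 2)) (h 2 0))
  have h2 : V1 = _ := funext V1_eq
  rw [h2]
  exact h1

theorem E_low : (fun x => 1 - ub 0 x - ub 1 x - ub 2 x + ub 0 x * ub 1 x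
    + ub 1 x * ub 2 x + ub 2 x * ub 0 x) ∈ Low (Fin 4 × Fin 3) 4 :=
  low_add (low_add (low_add (low_sub (low_sub (low_sub (low_const 1 4) (ub_low4 0)) (ub_low4 1)) (ub_low4 2))
    (uu_low 0 1)) (uu_low 1 2)) (uu_low 2 0)

theorem V2_low : V2 ∈ Low (Fin 4 × Fin 3) 5 := by
  have h1 := low_mono (show 4 + 1 ≤ 5 by norm_num) (low_mul E_low (low_add (low_const (1 / 2) 1) (low_smul (1 / 2) zb_low)))
  have h2 : V2 = _ := funext V2_eq
  rw [h2]
  exact h1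

theorem V3_low : V3 ∈ Low (Fin 4 × Fin 3) 5 := by
  have h1 := low_mono (show 4 + 1 ≤ 5 by norm_num) (low_mul E_low (low_add (low_const (1 / 2) 1) (low_smul (-1 / 2) zb_low)))
  have h2 : V3 = _ := funext V3_eq
  rw [h2]
  exact h1

theorem VV_low (a : Fin 4) : VV a ∈ Low (Fin 4 × Fin 3) 5 := by
  match a with
  | 0 => exact V0_low
  | 1 => exact V1_low
  | 2 => exact V2_low
  | 3 => exact V3_low

theorem num_cases (u0 t0 u1 t1 u2 t2 z : ℝ)
    (h0 : (u0 = 1 ∧ t0 = 1) ∨ (u0 = 1 ∧ t0 = -1) ∨ (u0 = 0 ∧ t0 = 0))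
    (h1 : (u1 = 1 ∧ t1 = 1) ∨ (u1 = 1 ∧ t1 = -1) ∨ (u1 = 0 ∧ t1 = 0))
    (h2 : (u2 = 1 ∧ t2 = 1) ∨ (u2 = 1 ∧ t2 = -1) ∨ (u2 = 0 ∧ t2 = 0))
    (hz : z = 1 ∨ z = -1) (A B C E : ℝ)
    (hA : A = (1 / 2) * ((u0 + t0) * (1 - u1) + (u1 + t1) * (1 - u2) + (u2 + t2) * (1 - u0)))
    (hB : B = (1 / 2) * ((u0 - t0) * (1 - u1) + (u1 - t1) * (1 - u2) + (u2 - t2) * (1 - u0)))
    (hC : C = (1 - u0 - u1 - u2 + u0 * u1 + u1 * u2 + u2 * u0) * (1 / 2 + 1 / 2 * z))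
    (hE : E = (1 - u0 - u1 - u2 + u0 * u1 + u1 * u2 + u2 * u0) * (1 / 2 + (-1 / 2) * z)) :
    (A = 1 ∧ B = 0 ∧ C = 0 ∧ E = 0) ∨ (A = 0 ∧ B = 1 ∧ C = 0 ∧ E = 0) ∨
    (A = 0 ∧ B = 0 ∧ C = 1 ∧ E = 0) ∨ (A = 0 ∧ B = 0 ∧ C = 0 ∧ E = 1) := by
  rcases h0 with ⟨rfl, rfl⟩ | ⟨rfl, rfl⟩ | ⟨rfl, rfl⟩ <;>
  rcases h1 with ⟨rfl, rfl⟩ | ⟨rfl, rfl⟩ | ⟨rfl, rfl⟩ <;>
  rcases h2 with ⟨rfl, rfl⟩ | ⟨rfl, rfl⟩ | ⟨rfl, rfl⟩ <;>
  rcases hz with rfl | rfl <;>
  norm_num [hA, hB, hC, hE]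

theorem zb_cases (x : Fin 4 × Fin 3 → ℤˣ) : zb x = 1 ∨ zb x = -1 := by
  unfold zb
  rcases Int.units_eq_one_or (x (3, 0)) with h | h <;> rw [h] <;> norm_num

theorem fin4_cases (b : Fin 4) : b = 0 ∨ b = 1 ∨ b = 2 ∨ b = 3 := by
  fin_cases b <;> simp

theorem VV_cases (x : Fin 4 × Fin 3 → ℤˣ) : ∃ a, VV a x = 1 ∧ ∀ b, b ≠ a → VV b x = 0 := by
  have h := num_cases (ub 0 x) (tb 0 x) (ub 1 x) (tb 1 x) (ub 2 x) (tb 2 x) (zb x)
    (ut_cases _) (ut_cases _) (ut_cases _) (zb_cases x) (V0 x) (V1 x) (V2 x) (V3 x)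
    (V0_eq x) (V1_eq x) (V2_eq x) (V3_eq x)
  have key : ∀ a : Fin 4, VV a x = 1 → (∀ b, b ≠ a → VV b x = 0) → ∃ a, VV a x = 1 ∧ ∀ b, b ≠ a → VV b x = 0 :=
    fun a h1 h2 => ⟨a, h1, h2⟩
  rcases h with ⟨hA, hB, hC, hE⟩ | ⟨hA, hB, hC, hE⟩ | ⟨hA, hB, hC, hE⟩ | ⟨hA, hB, hC, hE⟩
  · refine key 0 hA ?_
    intro b hb
    rcases fin4_cases b with rfl | rfl | rfl | rfl
    · exact absurd rfl hb
    · exact hB
    · exact hC
    · exact hE
  · refine key 1 hB ?_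
    intro b hb
    rcases fin4_cases b with rfl | rfl | rfl | rfl
    · exact hA
    · exact absurd rfl hb
    · exact hC
    · exact hE
  · refine key 2 hC ?_
    intro b hb
    rcases fin4_cases b with rfl | rfl | rfl | rfl
    · exact hA
    · exact hB
    · exact absurd rfl hb
    · exact hE
  · refine key 3 hE ?_
    intro b hb
    rcases fin4_cases b with rfl | rfl | rfl | rfl
    · exact hA
    · exact hB
    · exact hC
    · exact absurd rfl hb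

/-- The law of one block: `±3` with probability `9/32` each, `±1` with probability `7/32` each. -/
theorem M_ge_avg {k : ℕ} (hk : 1 ≤ k) :
    avg pF k (fun a => |∑ j, wF (a j)|) ≤ M (5 * k) :=
  product_bound VV _ _ VV_cases VV_low VV_sum VV_lin hk

theorem M_five : 17 / 8 ≤ M 5 := by
  have h := M_ge_avg (k := 1) le_rfl
  unfold avg at h
  rw [mul_one] at h
  refine le_trans (le_of_eq ?_) h
  simp only [Fin.prod_univ_one, Fin.sum_univ_one]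
  rw [← (Equiv.funUnique (Fin 1) (Fin 4)).symm.sum_comp]
  simp only [Fin.sum_univ_four, Equiv.funUnique_symm_apply, uniqueElim_const, pF, wF]
  norm_num

theorem M_asymp {c : ℝ} (hc : c < √(11 / (5 * Real.pi))) :
    ∀ᶠ d : ℕ in Filter.atTop, c * √(d : ℝ) ≤ M d := by
  have hpi := Real.pi_pos
  by_cases hc0 : c < 0
  · filter_upwards with d
    exact (mul_nonpos_of_nonpos_of_nonneg hc0.le (Real.sqrt_nonneg _)).trans (M_nonneg d)
  push Not at hc0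
  -- choose `c₁` strictly between
  obtain ⟨c₁, hc1, hc2⟩ := exists_between hc
  have hc1pos : 0 < c₁ := lt_of_le_of_lt hc0 hc1
  have hs5 : 0 < √(5 : ℝ) := Real.sqrt_pos.mpr (by norm_num)
  have hclt := clt_abs pF wF
    (by intro a; rcases fin4_cases a with rfl | rfl | rfl | rfl <;> simp only [pF] <;> norm_num)
    (by simp only [Fin.sum_univ_four, pF]; norm_num)
    (by simp only [Fin.sum_univ_four, pF, wF]; norm_num) (v := 11 / 2)
    (by simp only [Fin.sum_univ_four, pF, wF]; norm_num) (by norm_num) (c := c₁ * √5)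
    (by
      have : √(2 * (11 / 2) / Real.pi) = √(11 / (5 * Real.pi)) * √5 := by
        rw [← Real.sqrt_mul (by positivity)]
        congr 1
        field_simp
      rw [this]
      exact mul_lt_mul_of_pos_right hc2 hs5)
  obtain ⟨k₀, hk0⟩ := Filter.eventually_atTop.mp hclt
  -- `d ≥ 5 k` with `k = d / 5`, and `√(d/5) ≥ √((d-4)/5)`
  have hlim : Filter.Tendsto (fun d : ℕ => (d : ℝ)) Filter.atTop Filter.atTop := tendsto_natCast_atTop_atTop
  have hr : c ^ 2 < c₁ ^ 2 := by nlinarith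
  have hbig := hlim.eventually_ge_atTop (4 * c₁ ^ 2 / (c₁ ^ 2 - c ^ 2))
  filter_upwards [hbig, Filter.eventually_ge_atTop (5 * (k₀ + 1))] with d hd hd2
  set k := d / 5 with hk
  have hk1 : k₀ + 1 ≤ k := by omega
  have h5k : 5 * k ≤ d := Nat.mul_div_le d 5
  have h5k2 : d < 5 * k + 5 := by omega
  have h1 := hk0 k (by omega)
  have h2 := M_ge_avg (k := k) (by omega)
  have h3 : c₁ * √5 * √(k : ℝ) ≤ M d := (h1.trans h2).trans (M_mono h5k)
  refine le_trans ?_ h3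
  rw [mul_assoc, ← Real.sqrt_mul (by norm_num)]
  rw [← Real.sqrt_sq hc0, ← Real.sqrt_sq hc1pos.le, ← Real.sqrt_mul (by positivity), ← Real.sqrt_mul (by positivity)]
  apply Real.sqrt_le_sqrt
  have h4 : (d : ℝ) ≤ 5 * k + 4 := by
    have : d ≤ 5 * k + 4 := by omega
    exact_mod_cast this
  rw [div_le_iff₀ (by linarith)] at hd
  nlinarith

end Vale.Agent.P047
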