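import Vale.Agent.P047.Cheb

/-!
# P047: the linear upper bound with a constant below one
-/

namespace Vale.Agent.P047

open Finset Polynomial

section
variable {ι : Type*} [Fintype ι] [DecidableEq ι]

/-- the polynomial `R` with `2 x R(x²) = P(x) - P(-x)`. -/
noncomputable def oddR (f : (ι → ℤˣ) → ℝ) : ℝ[X] :=
  ∑ S : Finset ι, if Odd S.card then C (fhat f S) * X ^ ((S.card - 1) / 2) else 0

theorem oddR_eval (f : (ι → ℤˣ) → ℝ) (x : ℝ) :
    2 * (x * (oddR f).eval (x ^ 2)) = (genP f).eval x - (genP f).eval (-x) := by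
  unfold oddR genP
  rw [eval_finsetSum, eval_finsetSum, eval_finsetSum, ← Finset.sum_sub_distrib, Finset.mul_sum,
    Finset.mul_sum]
  apply Finset.sum_congr rfl
  intro S _
  split_ifs with h
  · obtain ⟨k, hk⟩ := h
    have h1 : (S.card - 1) / 2 = k := by omega
    simp only [eval_mul, eval_C, eval_pow, eval_X]
    rw [h1, hk, ← pow_mul, pow_succ, pow_succ, Even.neg_pow (even_two_mul k)]
    ring
  · rw [Nat.not_odd_iff_even] at h
    simp only [eval_zero, eval_mul, eval_C, eval_pow, eval_X, mul_zero]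
    rw [Even.neg_pow h]
    ring

theorem oddR_zero (f : (ι → ℤˣ) → ℝ) : (oddR f).eval 0 = lin f := by
  have h : C 2 * (X * (oddR f).comp (X ^ 2)) = genP f - (genP f).comp (-X) := by
    apply Polynomial.funext
    intro x
    simp only [eval_mul, eval_C, eval_X, eval_comp, eval_pow, eval_sub, eval_neg]
    exact oddR_eval f x
  have h2 := congrArg (fun q : ℝ[X] => (derivative q).eval 0) h
  simp only [derivative_mul, derivative_C, derivative_X, derivative_sub, derivative_comp, derivative_neg,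
    eval_add, eval_mul, eval_C, eval_X, eval_comp, eval_pow, eval_sub, eval_neg, eval_one,
    zero_mul, zero_add, add_zero, one_mul, neg_zero] at h2
  rw [lin_eq_genP]
  norm_num at h2
  linarith

theorem oddR_natDegree {d m : ℕ} (hdm : d ≤ 2 * m + 2) {f : (ι → ℤˣ) → ℝ} (hf : f ∈ Low ι d) :
    (oddR f).natDegree ≤ m := by
  unfold oddR
  apply natDegree_sum_le_of_forall_le
  intro S _
  split_ifs with h
  · by_cases hS : S.card ≤ d
    · refine (natDegree_C_mul_X_pow_le _ _).trans ?_
      obtain ⟨k, hk⟩ := h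
      omega
    · rw [(mem_low_iff f).mp hf S (by omega)]
      simp
  · simp

theorem genP_abs_le {f : (ι → ℤˣ) → ℝ} (hb : IsBool f) {ρ : ℝ} (h1 : -1 ≤ ρ) (h2 : ρ ≤ 1) :
    -1 ≤ (genP f).eval ρ ∧ (genP f).eval ρ ≤ 1 := by
  rw [← ex_eq_genP]
  constructor
  · have h := ex_mono h1 h2 (f := fun _ => -1) (g := f) (fun x => by
      rcases hb x with h | h <;> rw [h] <;> norm_num)
    have h3 : ex ρ (fun _ : ι → ℤˣ => (-1 : ℝ)) = -1 := by
      have := ex_smul (ι := ι) ρ (-1) (fun _ => 1)
      simp only [mul_one] at this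
      rw [this, ex_one]; norm_num
    linarith
  · have h := ex_mono h1 h2 (f := f) (g := fun _ => 1) (fun x => by
      rcases hb x with h | h <;> rw [h] <;> norm_num)
    rw [ex_one] at h
    exact h

theorem genP_lt_one {f : (ι → ℤˣ) → ℝ} (hb : IsBool f) {x₀ : ι → ℤˣ} (hx : f x₀ = -1) {ρ : ℝ}
    (h1 : -1 < ρ) (h2 : ρ < 1) : (genP f).eval ρ < 1 := by
  rw [← ex_eq_genP, ← ex_one (ι := ι) ρ]
  unfold ex
  apply Finset.sum_lt_sum
  · intro x _
    apply mul_le_mul_of_nonneg_left _ (wt_nonneg h1.le h2.le x)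
    rcases hb x with h | h <;> rw [h] <;> norm_num
  · refine ⟨x₀, Finset.mem_univ _, ?_⟩
    apply mul_lt_mul_of_pos_left _ (wt_pos h1 h2 x₀)
    rw [hx]; norm_num

theorem neg_one_lt_genP {f : (ι → ℤˣ) → ℝ} (hb : IsBool f) {x₀ : ι → ℤˣ} (hx : f x₀ = 1) {ρ : ℝ}
    (h1 : -1 < ρ) (h2 : ρ < 1) : -1 < (genP f).eval ρ := by
  have h3 : ex ρ (fun _ : ι → ℤˣ => (-1 : ℝ)) = -1 := by
    have := ex_smul (ι := ι) ρ (-1) (fun _ => 1)
    simp only [mul_one] at this
    rw [this, ex_one]; norm_num
  rw [← ex_eq_genP, ← h3]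
  unfold ex
  apply Finset.sum_lt_sum
  · intro x _
    apply mul_le_mul_of_nonneg_left _ (wt_nonneg h1.le h2.le x)
    rcases hb x with h | h <;> rw [h] <;> norm_num
  · refine ⟨x₀, Finset.mem_univ _, ?_⟩
    apply mul_lt_mul_of_pos_left _ (wt_pos h1 h2 x₀)
    rw [hx]; norm_num

/-- integrated form of the differential inequality -/
theorem log_ineq {d : ℕ} {f : (ι → ℤˣ) → ℝ} (hf : f ∈ Low ι d) (hb : IsBool f)
    {x₀ x₁ : ι → ℤˣ} (hx0 : f x₀ = -1) (hx1 : f x₁ = 1) {ρ : ℝ} (h0 : 0 < ρ) (h1 : ρ < 1) :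
    (1 + (genP f).eval ρ) * (1 - (genP f).eval (-ρ))
      ≤ (((1 + ρ) / (1 - ρ)) ^ d) ^ 2 * ((1 - (genP f).eval ρ) * (1 + (genP f).eval (-ρ))) := by
  set P := genP f with hP
  set Φ : ℝ → ℝ := fun t => Real.log (1 + P.eval t) - Real.log (1 - P.eval t)
    - d * (Real.log (1 + t) - Real.log (1 - t)) with hΦ
  have hlt : ∀ t, -1 < t → t < 1 → P.eval t < 1 := fun t ha hb' => genP_lt_one hb hx0 ha hb'
  have hgt : ∀ t, -1 < t → t < 1 → -1 < P.eval t := fun t ha hb' => neg_one_lt_genP hb hx1 ha hb'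
  have hder : ∀ t, -1 < t → t < 1 → HasDerivAt Φ
      ((derivative P).eval t / (1 + P.eval t) - (-(derivative P).eval t) / (1 - P.eval t)
        - d * (1 / (1 + t) - (-1) / (1 - t))) t := by
    intro t ha hb'
    have hp := P.hasDerivAt t
    have e1 : HasDerivAt (fun t => Real.log (1 + P.eval t)) ((derivative P).eval t / (1 + P.eval t)) t := by
      apply HasDerivAt.log
      · exact hp.const_add 1
      · have := hgt t ha hb'; linarith
    have e2 : HasDerivAt (fun t => Real.log (1 - P.eval t)) (-(derivative P).eval t / (1 - P.eval t)) t := by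
      apply HasDerivAt.log
      · exact hp.const_sub 1
      · have := hlt t ha hb'; linarith
    have e3 : HasDerivAt (fun t : ℝ => Real.log (1 + t)) (1 / (1 + t)) t := by
      apply HasDerivAt.log
      · exact (hasDerivAt_id t).const_add 1
      · linarith
    have e4 : HasDerivAt (fun t : ℝ => Real.log (1 - t)) (-1 / (1 - t)) t := by
      apply HasDerivAt.log
      · exact (hasDerivAt_id t).const_sub 1
      · linarith
    exact (e1.sub e2).sub ((e3.sub e4).const_mul (d : ℝ))
  have hneg : ∀ t, -1 < t → t < 1 → ((derivative P).eval t / (1 + P.eval t) - (-(derivative P).eval t) / (1 - P.eval t)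
        - d * (1 / (1 + t) - (-1) / (1 - t))) ≤ 0 := by
    intro t ha hb'
    have hA := hgt t ha hb'
    have hB := hlt t ha hb'
    have hC : 0 < 1 + P.eval t := by linarith
    have hD : 0 < 1 - P.eval t := by linarith
    have hE : 0 < 1 + t := by linarith
    have hF : 0 < 1 - t := by linarith
    have e1 : ((derivative P).eval t / (1 + P.eval t) - (-(derivative P).eval t) / (1 - P.eval t))
        = 2 * (derivative P).eval t / (1 - P.eval t ^ 2) := by
      have : (1 - P.eval t ^ 2) = (1 + P.eval t) * (1 - P.eval t) := by ring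
      rw [this]
      field_simp
      ring
    have e2 : (1 / (1 + t) - (-1) / (1 - t)) = 2 / (1 - t ^ 2) := by
      have : (1 - t ^ 2) = (1 + t) * (1 - t) := by ring
      rw [this]
      field_simp
      ring
    rw [e1, e2, sub_nonpos]
    have hG : 0 < 1 - P.eval t ^ 2 := by nlinarith
    have hH : 0 < 1 - t ^ 2 := by nlinarith
    rw [← mul_div_assoc, div_le_div_iff₀ hG hH]
    have := diff_ineq hf hb ha hb'
    nlinarith
  have hanti : AntitoneOn Φ (Set.Icc (-ρ) ρ) := by
    apply antitoneOn_of_deriv_nonpos (convex_Icc _ _)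
    · intro t ht
      exact (hder t (by linarith [ht.1]) (by linarith [ht.2])).continuousAt.continuousWithinAt
    · intro t ht
      rw [interior_Icc] at ht
      exact (hder t (by linarith [ht.1]) (by linarith [ht.2])).differentiableAt.differentiableWithinAt
    · intro t ht
      rw [interior_Icc] at ht
      rw [(hder t (by linarith [ht.1]) (by linarith [ht.2])).deriv]
      exact hneg t (by linarith [ht.1]) (by linarith [ht.2])
  have hcomp := hanti (Set.left_mem_Icc.mpr (by linarith)) (Set.right_mem_Icc.mpr (by linarith)) (by linarith : -ρ ≤ ρ)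
  simp only [hΦ] at hcomp
  have a1 : 0 < 1 + P.eval ρ := by have := hgt ρ (by linarith) h1; linarith
  have a2 : 0 < 1 - P.eval ρ := by have := hlt ρ (by linarith) h1; linarith
  have a3 : 0 < 1 + P.eval (-ρ) := by have := hgt (-ρ) (by linarith) (by linarith); linarith
  have a4 : 0 < 1 - P.eval (-ρ) := by have := hlt (-ρ) (by linarith) (by linarith); linarith
  have a5 : 0 < 1 + ρ := by linarith
  have a6 : 0 < 1 - ρ := by linarith
  have hlog : Real.log ((1 + P.eval ρ) * (1 - P.eval (-ρ)))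
      ≤ Real.log ((((1 + ρ) / (1 - ρ)) ^ d) ^ 2 * ((1 - P.eval ρ) * (1 + P.eval (-ρ)))) := by
    rw [Real.log_mul a1.ne' a4.ne', Real.log_mul (by positivity) (by positivity),
      Real.log_mul a2.ne' a3.ne', Real.log_pow, Real.log_pow, Real.log_div a5.ne' a6.ne']
    have e5 : (1 + -ρ) = 1 - ρ := by ring
    have e6 : (1 - -ρ) = 1 + ρ := by ring
    rw [e5, e6] at hcomp
    push_cast
    linarith
  exact (Real.log_le_log_iff (by positivity) (by positivity)).mp hlog

theorem odd_part_bound {d : ℕ} {f : (ι → ℤˣ) → ℝ} (hf : f ∈ Low ι d) (hb : IsBool f)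
    {x₀ x₁ : ι → ℤˣ} (hx0 : f x₀ = -1) (hx1 : f x₁ = 1) {ρ : ℝ} (h0 : 0 < ρ) (h1 : ρ < 1) :
    1 + ρ * (oddR f).eval (ρ ^ 2) ≤ ((1 + ρ) / (1 - ρ)) ^ d * (1 - ρ * (oddR f).eval (ρ ^ 2)) := by
  have hR := oddR_eval f ρ
  have hlog := log_ineq hf hb hx0 hx1 h0 h1
  set a := (genP f).eval ρ
  set b := -(genP f).eval (-ρ) with hbdef
  set K := ((1 + ρ) / (1 - ρ)) ^ d with hK
  have hb2 : (genP f).eval (-ρ) = -b := by rw [hbdef]; ring
  rw [hb2] at hR hlog
  set μ := ρ * (oddR f).eval (ρ ^ 2) with hμ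
  have hm : μ = (a + b) / 2 := by linarith
  have a1 : a < 1 := genP_lt_one hb hx0 (by linarith) h1
  have a2 : -1 < a := neg_one_lt_genP hb hx1 (by linarith) h1
  have b1 : b < 1 := by
    have := neg_one_lt_genP hb hx1 (ρ := -ρ) (by linarith) (by linarith); rw [hb2] at this; linarith
  have b2 : -1 < b := by
    have := genP_lt_one hb hx0 (ρ := -ρ) (by linarith) (by linarith); rw [hb2] at this; linarith
  have hK1 : 1 ≤ K := by
    apply one_le_pow₀
    rw [le_div_iff₀ (by linarith)]; linarith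
  have hμ1 : 0 < 1 - μ := by rw [hm]; linarith
  by_cases hpos : μ ≤ 0
  · calc 1 + μ ≤ 1 - μ := by linarith
      _ ≤ K * (1 - μ) := by nlinarith
  · push Not at hpos
    have e1 : (1 + a) * (1 + b) ≤ K ^ 2 * ((1 - a) * (1 - b)) := by
      have : (1 - -b) = 1 + b := by ring
      rw [this] at hlog
      have : (1 + -b) = 1 - b := by ring
      rw [this] at hlog
      exact hlog
    have e2 : (1 + μ) ^ 2 * ((1 - a) * (1 - b)) ≤ (1 - μ) ^ 2 * ((1 + a) * (1 + b)) := by
      have : (1 - μ) ^ 2 * ((1 + a) * (1 + b)) - (1 + μ) ^ 2 * ((1 - a) * (1 - b))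
          = 4 * μ * (μ ^ 2 - a * b) := by rw [hm]; ring
      have h2 : 0 ≤ μ ^ 2 - a * b := by rw [hm]; nlinarith [sq_nonneg (a - b)]
      nlinarith [mul_nonneg hpos.le h2]
    have e3 : 0 < (1 - a) * (1 - b) := mul_pos (by linarith) (by linarith)
    have e4 : (1 + μ) ^ 2 ≤ (K * (1 - μ)) ^ 2 := by
      have : (1 + μ) ^ 2 * ((1 - a) * (1 - b)) ≤ (K * (1 - μ)) ^ 2 * ((1 - a) * (1 - b)) := by
        calc _ ≤ (1 - μ) ^ 2 * ((1 + a) * (1 + b)) := e2
          _ ≤ (1 - μ) ^ 2 * (K ^ 2 * ((1 - a) * (1 - b))) := mul_le_mul_of_nonneg_left e1 (sq_nonneg _)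
          _ = _ := by ring
      exact le_of_mul_le_mul_right this e3
    exact (sq_le_sq₀ (by linarith) (by positivity)).mp e4

/-- general form of the bound: `m` is arbitrary with `d ≤ 2m+2`, `ρ = cos(mπ/(2m+1))`. -/
theorem lin_le_gain {d m : ℕ} (hdm : d ≤ 2 * m + 2) (hm : 1 ≤ m) {f : (ι → ℤˣ) → ℝ} (hf : f ∈ Low ι d)
    (hb : IsBool f) {K : ℝ} (hK : ((1 + nd m m) / (1 - nd m m)) ^ d ≤ K) :
    lin f ≤ (2 * m + 1) - (2 / (K + 1)) / nd m m := by
  have hpos := nd_pos (le_refl m)
  have hlt : nd m m < 1 := by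
    have h1 := nd_lt (j := 0) (k := m) (by omega) (le_refl m)
    have h2 := nd_le_one m 0
    linarith
  have hK1 : 1 ≤ ((1 + nd m m) / (1 - nd m m)) ^ d := by
    apply one_le_pow₀
    rw [le_div_iff₀ (by linarith)]; linarith
  have hnodes : ∀ k ≤ m, |nd m k * (oddR f).eval (nd m k ^ 2)| ≤ 1 := by
    intro k hk
    have h1 := nd_pos hk
    have h2 := nd_le_one m k
    have e1 := genP_abs_le hb (ρ := nd m k) (by linarith) h2
    have e2 := genP_abs_le hb (ρ := -nd m k) (by linarith) (by linarith)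
    have e3 := oddR_eval f (nd m k)
    rw [abs_le]
    constructor <;> linarith [e1.1, e1.2, e2.1, e2.2]
  have hε : 0 ≤ 2 / (K + 1) := by
    apply div_nonneg (by norm_num); linarith
  by_cases hconst : (∃ x₀, f x₀ = -1) ∧ (∃ x₁, f x₁ = 1)
  · obtain ⟨⟨x₀, hx0⟩, ⟨x₁, hx1⟩⟩ := hconst
    have hodd := odd_part_bound hf hb hx0 hx1 hpos hlt
    set μ := nd m m * (oddR f).eval (nd m m ^ 2) with hμ
    have hμ1 : μ ≤ 1 := (abs_le.mp (hnodes m (le_refl m))).2
    have h3 : 1 + μ ≤ K * (1 - μ) :=
      hodd.trans (mul_le_mul_of_nonneg_right hK (by linarith))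
    have h4 : μ ≤ 1 - 2 / (K + 1) := by
      have hK2 : 0 < K + 1 := by linarith
      have : (1 - 2 / (K + 1)) = (K - 1) / (K + 1) := by field_simp; ring
      rw [this, le_div_iff₀ hK2]
      linarith
    rw [← oddR_zero]
    exact interp_bound (oddR_natDegree hdm hf) hnodes h4 hε
  · have hc : (∀ x, f x = 1) ∨ (∀ x, f x = -1) := by
      by_contra hcon
      push Not at hcon
      obtain ⟨⟨x, hx⟩, ⟨y, hy⟩⟩ := hcon
      exact hconst ⟨⟨x, (hb x).resolve_left hx⟩, ⟨y, (hb y).resolve_right hy⟩⟩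
    have hl : lin f = 0 := by
      have hsum : ∑ x : ι → ℤˣ, ∑ i, ((x i : ℤ) : ℝ) = 0 := sum_lin_one
      rcases hc with h | h
      · have : f = fun _ => 1 := funext h
        rw [this, lin_eq]; simp only [one_mul]; rw [hsum]; simp
      · have : f = fun _ => -1 := funext h
        rw [this, lin_eq, ← Finset.mul_sum, hsum]; simp
    rw [hl]
    have h5 : (2 / (K + 1)) / nd m m ≤ 2 * m + 1 := by
      -- `2/(K+1) ≤ 1` and `1/nd ≤ 2m+1` from the interpolation identity
      have e1 : 2 / (K + 1) ≤ 1 := by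
        rw [div_le_one (by linarith)]; linarith
      have e2 : 1 / nd m m ≤ 2 * m + 1 := by
        rw [← sum_bk m]
        have e3 : |bk m m| / nd m m ≤ ∑ k ∈ Finset.range (m + 1), |bk m k| / nd m k := by
          apply Finset.single_le_sum (f := fun k => |bk m k| / nd m k)
          · intro k hk
            have hk' : k ≤ m := by simpa [Nat.lt_succ_iff] using hk
            exact div_nonneg (abs_nonneg _) (nd_pos hk').le
          · simp
        refine le_trans ?_ e3
        apply div_le_div_of_nonneg_right _ hpos.le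
        exact (bk_last m).trans (le_abs_self _)
      calc (2 / (K + 1)) / nd m m ≤ 1 / nd m m := div_le_div_of_nonneg_right e1 hpos.le
        _ ≤ _ := e2
    linarith

end

/-- `g(u) = log((1 + sin u)/(1 - sin u))`. -/
noncomputable def gd (u : ℝ) : ℝ := Real.log (1 + Real.sin u) - Real.log (1 - Real.sin u)

theorem gd_hasDeriv {u : ℝ} (h1 : -(Real.pi / 2) < u) (h2 : u < Real.pi / 2) :
    HasDerivAt gd (2 / Real.cos u) u := by
  have hc : 0 < Real.cos u := Real.cos_pos_of_mem_Ioo ⟨h1, h2⟩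
  have hs := Real.sin_sq_add_cos_sq u
  have hs1 : 0 < 1 + Real.sin u := by nlinarith [Real.neg_one_le_sin u]
  have hs2 : 0 < 1 - Real.sin u := by nlinarith [Real.sin_le_one u]
  have e1 : HasDerivAt (fun t => Real.log (1 + Real.sin t)) (Real.cos u / (1 + Real.sin u)) u :=
    HasDerivAt.log ((Real.hasDerivAt_sin u).const_add 1) hs1.ne'
  have e2 : HasDerivAt (fun t => Real.log (1 - Real.sin t)) (-Real.cos u / (1 - Real.sin u)) u :=
    HasDerivAt.log ((Real.hasDerivAt_sin u).const_sub 1) hs2.ne'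
  have h := e1.sub e2
  have e3 : Real.cos u / (1 + Real.sin u) - -Real.cos u / (1 - Real.sin u) = 2 / Real.cos u := by
    have : Real.cos u ^ 2 = (1 + Real.sin u) * (1 - Real.sin u) := by linarith
    rw [div_sub_div _ _ hs1.ne' hs2.ne', div_eq_div_iff (by positivity) hc.ne']
    linear_combination 2 * this
  rw [e3] at h
  exact h

theorem gd_convex : ConvexOn ℝ (Set.Icc 0 (Real.pi / 6)) gd := by
  have hpi := Real.pi_pos
  have hd : ∀ u ∈ Set.Icc (0 : ℝ) (Real.pi / 6), HasDerivAt gd (2 / Real.cos u) u := by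
    intro u hu
    exact gd_hasDeriv (by linarith [hu.1]) (by linarith [hu.2])
  apply MonotoneOn.convexOn_of_deriv (convex_Icc _ _)
  · intro u hu
    exact (hd u hu).continuousAt.continuousWithinAt
  · intro u hu
    exact (hd u (interior_subset hu)).differentiableAt.differentiableWithinAt
  · intro u hu v hv huv
    rw [(hd u (interior_subset hu)).deriv, (hd v (interior_subset hv)).deriv]
    rw [interior_Icc] at hu hv
    have hcv : 0 < Real.cos v := Real.cos_pos_of_mem_Ioo ⟨by linarith [hv.1], by linarith [hv.2]⟩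
    have hcu : Real.cos v ≤ Real.cos u :=
      Real.cos_le_cos_of_nonneg_of_le_pi hu.1.le (by linarith [hv.2]) huv
    exact div_le_div_of_nonneg_left (by norm_num) hcv hcu

theorem gd_le {u : ℝ} (h0 : 0 ≤ u) (h1 : u ≤ Real.pi / 6) : gd u ≤ (6 * u / Real.pi) * Real.log 3 := by
  have hpi := Real.pi_pos
  have hg0 : gd 0 = 0 := by simp [gd]
  have hg1 : gd (Real.pi / 6) = Real.log 3 := by
    unfold gd
    rw [Real.sin_pi_div_six, ← Real.log_div (by norm_num) (by norm_num)]
    norm_num
  have hu : 6 * u / Real.pi ≤ 1 := by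
    rw [div_le_one hpi]; linarith
  have hα : 0 ≤ 1 - 6 * u / Real.pi := by linarith
  have hβ : 0 ≤ 6 * u / Real.pi := by positivity
  have hαβ : (1 - 6 * u / Real.pi) + 6 * u / Real.pi = 1 := by ring
  have h := gd_convex.2 (Set.left_mem_Icc.mpr (by positivity)) (Set.right_mem_Icc.mpr (by positivity))
    hα hβ hαβ
  have e : (1 - 6 * u / Real.pi) • (0 : ℝ) + (6 * u / Real.pi) • (Real.pi / 6) = u := by
    simp only [smul_eq_mul, mul_zero, zero_add]
    field_simp
  rw [e, hg0, hg1] at h
  simpa using h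

theorem nd_eq_sin (m : ℕ) : nd m m = Real.sin (Real.pi / (2 * (2 * m + 1))) := by
  unfold nd
  rw [← Real.cos_pi_div_two_sub]
  congr 1
  field_simp
  ring

theorem nd_le (m : ℕ) : nd m m ≤ Real.pi / (2 * (2 * m + 1)) := by
  rw [nd_eq_sin]
  exact Real.sin_le (by positivity)

theorem ratio_pow_le {m : ℕ} (hm : 1 ≤ m) : ((1 + nd m m) / (1 - nd m m)) ^ (2 * m + 1) ≤ 27 := by
  have hpi := Real.pi_pos
  have hpos := nd_pos (le_refl m)
  have hlt : nd m m < 1 := by
    have h1 := nd_lt (j := 0) (k := m) (by omega) (le_refl m)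
    have h2 := nd_le_one m 0
    linarith
  have hm' : (1 : ℝ) ≤ m := by exact_mod_cast hm
  set u := Real.pi / (2 * (2 * (m : ℝ) + 1)) with hu
  have hu0 : 0 ≤ u := by positivity
  have hu1 : u ≤ Real.pi / 6 := by
    rw [hu]
    apply div_le_div_of_nonneg_left hpi.le (by norm_num); linarith
  have hg := gd_le hu0 hu1
  have e1 : (6 * u / Real.pi) = 3 / (2 * m + 1) := by
    rw [hu]; field_simp; ring
  have e2 : gd u = Real.log ((1 + nd m m) / (1 - nd m m)) := by
    unfold gd
    rw [nd_eq_sin, Real.log_div]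
    · rw [← nd_eq_sin]; linarith
    · rw [← nd_eq_sin]; linarith
  have hr : 0 < (1 + nd m m) / (1 - nd m m) := div_pos (by linarith) (by linarith)
  rw [← Real.log_le_log_iff (by positivity) (by norm_num), Real.log_pow, ← e2]
  have e3 : Real.log 27 = 3 * Real.log 3 := by
    have : (27 : ℝ) = 3 ^ 3 := by norm_num
    rw [this, Real.log_pow]; norm_num
  rw [e3]
  have hD : (0 : ℝ) < 2 * m + 1 := by positivity
  rw [e1] at hg
  push_cast
  calc (2 * (m : ℝ) + 1) * gd u ≤ (2 * (m : ℝ) + 1) * (3 / (2 * m + 1) * Real.log 3) :=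
        mul_le_mul_of_nonneg_left hg hD.le
    _ = 3 * Real.log 3 := by field_simp

/-- For odd `d ≥ 3`: `M(d) ≤ (21/22) d`. -/
theorem M_odd_le {d : ℕ} (hd : Odd d) (h3 : 3 ≤ d) : M d ≤ 21 / 22 * d := by
  obtain ⟨m, rfl⟩ := hd
  have hm : 1 ≤ m := by omega
  apply M_le
  intro n f hn hf hb
  have h := lin_le_gain (m := m) (by omega) hm hf hb (ratio_pow_le hm)
  have hpos := nd_pos (le_refl m)
  have hnd := nd_le m
  have hpi := Real.pi_pos
  have hpi2 := Real.pi_lt_d4
  have hD : (0 : ℝ) < 2 * m + 1 := by positivity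
  have e1 : (2 / (27 + 1 : ℝ)) / nd m m ≥ (1 / 22) * (2 * m + 1) := by
    rw [ge_iff_le, le_div_iff₀ hpos]
    calc (1 / 22 : ℝ) * (2 * m + 1) * nd m m ≤ (1 / 22 : ℝ) * (2 * m + 1) * (Real.pi / (2 * (2 * m + 1))) :=
          mul_le_mul_of_nonneg_left hnd (by positivity)
      _ = Real.pi / 44 := by field_simp; ring
      _ ≤ 2 / (27 + 1) := by norm_num; linarith
  push_cast
  linarith

/-- For every `d ≥ 2`: `M(d) ≤ (29/30) d`. -/
theorem M_le_all {d : ℕ} (h2 : 2 ≤ d) : M d ≤ 29 / 30 * d := by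
  have hpi := Real.pi_pos
  have hpi2 := Real.pi_lt_d4
  rcases Nat.even_or_odd d with hev | hodd
  · obtain ⟨k, hk⟩ := hev
    obtain ⟨m, rfl⟩ : ∃ m, k = m + 1 := ⟨k - 1, by omega⟩
    have hdm : d = 2 * m + 2 := by omega
    subst hdm
    apply M_le
    intro n f hn hf hb
    rcases Nat.eq_zero_or_pos m with hm | hm
    · subst hm
      -- degree two: the odd part has degree one
      have hint := interp_bound (m := 0) (R := oddR f) (oddR_natDegree (by omega) hf) (ε := 0)
        (by
          intro k hk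
          have h1 := nd_pos hk
          have h2 := nd_le_one 0 k
          have e1 := genP_abs_le hb (ρ := nd 0 k) (by linarith) h2
          have e2 := genP_abs_le hb (ρ := -nd 0 k) (by linarith) (by linarith)
          have e3 := oddR_eval f (nd 0 k)
          rw [abs_le]
          constructor <;> linarith [e1.1, e1.2, e2.1, e2.2])
        (by
          have h1 := nd_pos (le_refl 0)
          have h2 := nd_le_one 0 0
          have e1 := genP_abs_le hb (ρ := nd 0 0) (by linarith) h2
          have e2 := genP_abs_le hb (ρ := -nd 0 0) (by linarith) (by linarith)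
          have e3 := oddR_eval f (nd 0 0)
          linarith [e1.1, e1.2, e2.1, e2.2]) (le_refl 0)
      rw [oddR_zero] at hint
      norm_num at hint ⊢
      linarith
    · have hm1 : 1 ≤ m := hm
      have hpos := nd_pos (le_refl m)
      have hnd := nd_le m
      have hlt : nd m m < 1 := by
        have h1 := nd_lt (j := 0) (k := m) (by omega) (le_refl m)
        have h2 := nd_le_one m 0
        linarith
      have hr : 1 ≤ (1 + nd m m) / (1 - nd m m) := by
        rw [le_div_iff₀ (by linarith)]; linarith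
      have h27 := ratio_pow_le hm1
      set r := (1 + nd m m) / (1 - nd m m) with hrdef
      by_cases hm15 : m < 15
      · have h := lin_le_gain (m := m) (by omega) hm1 hf hb (K := r ^ (2 * m + 2)) (le_refl _)
        have e1 : 0 ≤ (2 / (r ^ (2 * m + 2) + 1)) / nd m m := by positivity
        have e2 : (m : ℝ) ≤ 14 := by exact_mod_cast (by omega : m ≤ 14)
        push_cast
        linarith
      · have hm15' : 15 ≤ m := by omega
        have hr2 : r ≤ 8 / 7 := by
          by_contra hcon
          push Not at hcon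
          have e1 : (8 / 7 : ℝ) ^ 29 ≤ r ^ 29 := pow_le_pow_left₀ (by norm_num) hcon.le 29
          have e2 : r ^ 29 ≤ r ^ (2 * m + 1) := pow_le_pow_right₀ hr (by omega)
          have e3 : (27 : ℝ) < (8 / 7) ^ 29 := by norm_num
          linarith
        have hK : r ^ (2 * m + 2) ≤ 216 / 7 := by
          have : r ^ (2 * m + 2) = r ^ (2 * m + 1) * r := by rw [← pow_succ]
          rw [this]
          have h0 : 0 ≤ r ^ (2 * m + 1) := by positivity
          nlinarith
        have h := lin_le_gain (m := m) (by omega) hm1 hf hb hK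
        have e1 : (2 / (216 / 7 + 1 : ℝ)) / nd m m ≥ (1 / 30) * (2 * m + 1) := by
          rw [ge_iff_le, le_div_iff₀ hpos]
          calc (1 / 30 : ℝ) * (2 * m + 1) * nd m m ≤ (1 / 30 : ℝ) * (2 * m + 1) * (Real.pi / (2 * (2 * m + 1))) :=
                mul_le_mul_of_nonneg_left hnd (by positivity)
            _ = Real.pi / 60 := by field_simp; ring
            _ ≤ 2 / (216 / 7 + 1) := by norm_num; linarith
        push_cast
        linarith
  · have h3 : 3 ≤ d := by
      obtain ⟨k, hk⟩ := hodd; omega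
    have h := M_odd_le hodd h3
    have : (0 : ℝ) ≤ d := Nat.cast_nonneg d
    linarith

end Vale.Agent.P047
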